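import Vale.Agent.P219.Sobolev

/-!
# P219: `n (det H det P)^(1/n) ≤ tr (H P)` for `H` symmetric PSD and `P` symmetric PD
-/

namespace Vale.Agent.P219.Transport

open Matrix
open scoped RealInnerProductSpace

variable {n : ℕ}

/-- AM–GM for the eigenvalues of a product of symmetric positive matrices. -/
lemma matrix_am_gm (hn : 0 < n) {H P : Matrix (Fin n) (Fin n) ℝ} (hH : H.PosSemidef)
    (hP : P.PosDef) : (n : ℝ) * (H.det * P.det) ^ ((n : ℝ)⁻¹) ≤ (H * P).trace := by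
  set U : Matrix (Fin n) (Fin n) ℝ :=
    (hP.isHermitian.eigenvectorUnitary : Matrix (Fin n) (Fin n) ℝ)
  set d : Matrix (Fin n) (Fin n) ℝ :=
    diagonal fun i => Real.sqrt (hP.isHermitian.eigenvalues i)
  set Q : Matrix (Fin n) (Fin n) ℝ := d * star U
  have eP : P = Qᴴ * Q := by
    rw [Matrix.conjTranspose_mul, star_eq_conjTranspose, Matrix.conjTranspose_conjTranspose]
    show P = U * dᴴ * (d * Uᴴ)
    have hd : dᴴ * d = diagonal hP.isHermitian.eigenvalues := by
      rw [diagonal_conjTranspose, diagonal_mul_diagonal]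
      congr 1
      funext i
      exact Real.mul_self_sqrt (hP.eigenvalues_pos i).le
    rw [show U * dᴴ * (d * Uᴴ) = U * (dᴴ * d) * Uᴴ by simp only [Matrix.mul_assoc], hd]
    have := hP.isHermitian.spectral_theorem
    simpa [Unitary.conjStarAlgAut_apply, star_eq_conjTranspose, Function.comp_def, U] using this
  have hS : (Q * H * Qᴴ).PosSemidef := hH.mul_mul_conjTranspose_same Q
  have etr : (H * P).trace = (Q * H * Qᴴ).trace := by
    rw [Matrix.trace_mul_cycle, eP, Matrix.trace_mul_comm H]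
  have edet : H.det * P.det = (Q * H * Qᴴ).det := by
    clear_value Q
    rw [eP, Matrix.det_mul, Matrix.det_mul, Matrix.det_mul]; ring
  rw [etr, edet]
  have h1 : (Q * H * Qᴴ).det = ∏ i, hS.isHermitian.eigenvalues i := by
    simpa using hS.isHermitian.det_eq_prod_eigenvalues
  have h2 : (Q * H * Qᴴ).trace = ∑ i, hS.isHermitian.eigenvalues i := by
    simpa using hS.isHermitian.trace_eq_sum_eigenvalues
  rw [h1, h2]
  have hn' : (0 : ℝ) < n := by exact_mod_cast hn
  have h := Real.geom_mean_le_arith_mean_weighted Finset.univ (fun _ => (n : ℝ)⁻¹)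
    hS.isHermitian.eigenvalues (fun _ _ => (inv_pos.2 hn').le) (by simp [hn'.ne'])
    (fun i _ => hS.eigenvalues_nonneg i)
  rw [← Real.finsetProd_rpow _ _ fun i _ => hS.eigenvalues_nonneg i]
  rw [← Finset.mul_sum, ← div_eq_inv_mul, le_div_iff₀ hn'] at h
  linarith [h, mul_comm (n : ℝ) (∏ i, hS.isHermitian.eigenvalues i ^ (n : ℝ)⁻¹)]

/-- The trace of an endomorphism of Euclidean space. -/
noncomputable def tr (A : E n →L[ℝ] E n) : ℝ :=
  LinearMap.trace ℝ (E n) (A : E n →ₗ[ℝ] E n)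

lemma tr_eq_sum (A : E n →L[ℝ] E n) :
    tr A = ∑ i, (A (EuclideanSpace.single i (1 : ℝ))) i := by
  rw [tr, LinearMap.trace_eq_matrix_trace ℝ (EuclideanSpace.basisFun (Fin n) ℝ).toBasis,
    Matrix.trace]
  simp [LinearMap.toMatrix_apply]

/-- The matrix of an endomorphism in the standard basis. -/
noncomputable def mat (A : E n →L[ℝ] E n) : Matrix (Fin n) (Fin n) ℝ :=
  LinearMap.toMatrix (EuclideanSpace.basisFun (Fin n) ℝ).toBasis
    (EuclideanSpace.basisFun (Fin n) ℝ).toBasis (A : E n →ₗ[ℝ] E n)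

lemma mat_apply (A : E n →L[ℝ] E n) (i j : Fin n) :
    mat A i j = A (EuclideanSpace.single j (1 : ℝ)) i := by
  simp [mat, LinearMap.toMatrix_apply]

lemma det_eq_mat (A : E n →L[ℝ] E n) : A.det = (mat A).det :=
  (LinearMap.det_toMatrix _ _).symm

lemma tr_comp_eq_mat (A A' : E n →L[ℝ] E n) : tr (A.comp A') = (mat A * mat A').trace := by
  rw [tr, LinearMap.trace_eq_matrix_trace ℝ (EuclideanSpace.basisFun (Fin n) ℝ).toBasis,
    mat, mat, ← LinearMap.toMatrix_comp]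
  rfl

lemma mat_quadratic (A : E n →L[ℝ] E n) (v : Fin n → ℝ) :
    dotProduct v (mat A *ᵥ v) = ⟪WithLp.toLp 2 v, A (WithLp.toLp 2 v)⟫ := by
  have e : WithLp.toLp 2 v = ∑ j, v j • EuclideanSpace.single j (1 : ℝ) := by
    conv_lhs => rw [← (EuclideanSpace.basisFun (Fin n) ℝ).sum_repr (WithLp.toLp 2 v)]
    simp
  have eA : A (WithLp.toLp 2 v) = WithLp.toLp 2 (mat A *ᵥ v) := by
    rw [e, map_sum]
    ext i
    simp [Matrix.mulVec, dotProduct, mat_apply, mul_comm]
  rw [eA, EuclideanSpace.inner_toLp_toLp, star_trivial, dotProduct_comm]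

lemma mat_isHermitian {A : E n →L[ℝ] E n} (hA : ∀ u v, ⟪A u, v⟫ = ⟪u, A v⟫) :
    (mat A).IsHermitian := by
  ext i j
  rw [Matrix.conjTranspose_apply, star_trivial, mat_apply, mat_apply]
  have h := hA (EuclideanSpace.single i (1 : ℝ)) (EuclideanSpace.single j (1 : ℝ))
  rw [EuclideanSpace.inner_single_right, EuclideanSpace.inner_single_left] at h
  simpa using h

/-- AM–GM for operators. -/
theorem tr_am_gm (hn : 0 < n) {A P : E n →L[ℝ] E n} (hA : ∀ u v, ⟪A u, v⟫ = ⟪u, A v⟫)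
    (hA0 : ∀ v, 0 ≤ ⟪v, A v⟫) (hP : ∀ u v, ⟪P u, v⟫ = ⟪u, P v⟫)
    (hP0 : ∀ v, v ≠ 0 → 0 < ⟪v, P v⟫) :
    (n : ℝ) * (A.det * P.det) ^ ((n : ℝ)⁻¹) ≤ tr (A.comp P) := by
  rw [det_eq_mat, det_eq_mat, tr_comp_eq_mat]
  refine matrix_am_gm hn ?_ ?_
  · refine Matrix.posSemidef_iff_dotProduct_mulVec.2 ⟨mat_isHermitian hA, fun v => ?_⟩
    rw [star_trivial, mat_quadratic]
    exact hA0 _
  · refine Matrix.posDef_iff_dotProduct_mulVec.2 ⟨mat_isHermitian hP, fun v hv => ?_⟩
    rw [star_trivial, mat_quadratic]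
    exact hP0 _ fun h => hv (by simpa using congrArg WithLp.ofLp h)

lemma det_nonneg {A : E n →L[ℝ] E n} (hA : ∀ u v, ⟪A u, v⟫ = ⟪u, A v⟫)
    (hA0 : ∀ v, 0 ≤ ⟪v, A v⟫) : 0 ≤ A.det := by
  rw [det_eq_mat]
  refine (Matrix.posSemidef_iff_dotProduct_mulVec.2 ⟨mat_isHermitian hA, fun v => ?_⟩).det_nonneg
  rw [star_trivial, mat_quadratic]
  exact hA0 _

lemma det_pos {A : E n →L[ℝ] E n} (hA : ∀ u v, ⟪A u, v⟫ = ⟪u, A v⟫)
    (hA0 : ∀ v, v ≠ 0 → 0 < ⟪v, A v⟫) : 0 < A.det := by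
  rw [det_eq_mat]
  refine (Matrix.posDef_iff_dotProduct_mulVec.2 ⟨mat_isHermitian hA, fun v hv => ?_⟩).det_pos
  rw [star_trivial, mat_quadratic]
  exact hA0 _ fun h => hv (by simpa using congrArg WithLp.ofLp h)

/-- An operator of norm at most one has determinant of modulus at most one. -/
lemma abs_det_le_one {A : E n →L[ℝ] E n} (hA : ‖A‖ ≤ 1) : |A.det| ≤ 1 := by
  have h0 : MeasureTheory.volume (Metric.closedBall (0 : E n) 1) ≠ 0 :=
    (Metric.measure_closedBall_pos MeasureTheory.volume _ one_pos).ne'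
  have ht : MeasureTheory.volume (Metric.closedBall (0 : E n) 1) ≠ ⊤ :=
    (isCompact_closedBall (0 : E n) 1).measure_lt_top.ne
  have hsub : A '' Metric.closedBall 0 1 ⊆ Metric.closedBall 0 1 := by
    rintro _ ⟨v, hv, rfl⟩
    rw [mem_closedBall_zero_iff] at hv ⊢
    exact (A.le_opNorm v).trans (mul_le_one₀ hA (norm_nonneg _) hv)
  have h := MeasureTheory.measure_mono (μ := MeasureTheory.volume) hsub
  rw [MeasureTheory.Measure.addHaar_image_continuousLinearMap] at h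
  by_contra hlt
  rw [not_le] at hlt
  have h1 : (1 : ENNReal) < ENNReal.ofReal |A.det| := ENNReal.one_lt_ofReal.2 hlt
  have := ENNReal.mul_lt_mul_left h0 ht h1
  rw [one_mul] at this
  exact absurd (lt_of_lt_of_le this h) (lt_irrefl _)

end Vale.Agent.P219.Transport
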