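import Vale.Agent.P219.Transport.Level

/-!
# P219: the frame of a conformal metric `ξ⁻² δ` with `ξ` concave
-/

namespace Vale.Agent.P219.Transport

open MeasureTheory Set Filter Topology Metric
open scoped RealInnerProductSpace ENNReal NNReal ContDiff

variable {n : ℕ} {U : Set (E n)} {ξ : E n → ℝ}

/-- The frame of `ξ⁻² δ`. -/
noncomputable def confM (ξ : E n → ℝ) (x : E n) : E n →L[ℝ] E n :=
  ξ x • ContinuousLinearMap.id ℝ (E n)

lemma confM_apply (x v : E n) : confM ξ x v = ξ x • v := rfl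

lemma det_confM (x : E n) : (confM ξ x).det = ξ x ^ n := by
  simp [confM, ContinuousLinearMap.det]

lemma dens_confM (x : E n) (hx : 0 < ξ x) : dens (confM ξ) x = (ξ x ^ n)⁻¹ := by
  rw [dens, det_confM, abs_of_pos (pow_pos hx n)]

lemma norm_comp_confM (L : E n →L[ℝ] ℝ) (x : E n) (hx : 0 < ξ x) :
    ‖L.comp (confM ξ x)‖ = ξ x * ‖L‖ := by
  rw [confM, ContinuousLinearMap.comp_smul, ContinuousLinearMap.comp_id, norm_smul,
    Real.norm_eq_abs, abs_of_pos hx]

/-- The divergence vector of `ξ⁻² δ` is `-(n - 1) ∇ξ`. -/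
lemma frameD_confM (hU : IsOpen U) (hξ : ContDiffOn ℝ 2 ξ U) (hpos : ∀ x ∈ U, 0 < ξ x)
    {x : E n} (hx : x ∈ U) :
    frameD (confM ξ) x = ∑ i, (-((n : ℝ) - 1) * fderiv ℝ ξ x (e i)) • e i := by
  have hn : ∀ y ∈ U, 0 < ξ y ^ n := fun y hy => pow_pos (hpos y hy) n
  have hd : HasFDerivAt ξ (fderiv ℝ ξ x) x :=
    ((hξ.differentiableOn (by norm_num)).differentiableAt (hU.mem_nhds hx)).hasFDerivAt
  refine Finset.sum_congr rfl fun i _ => ?_
  congr 1
  have h1 : HasFDerivAt (fun y => ξ y * (ξ y ^ n)⁻¹)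
      (((1 - (n : ℝ)) * (ξ x ^ n)⁻¹) • fderiv ℝ ξ x) x := by
    have h2 := hd.mul (HasDerivAt.comp_hasFDerivAt (f := fun y => ξ y ^ n) x (hasDerivAt_inv (hn x hx).ne') (hd.pow n))
    refine h2.congr_fderiv ?_
    simp only [Function.comp_apply, smul_smul, ← add_smul, nsmul_eq_mul]
    congr 1
    rcases Nat.eq_zero_or_pos n with h | h
    · subst h; simp
    · obtain ⟨m, rfl⟩ : ∃ m, n = m + 1 := ⟨n - 1, by omega⟩
      have := (hpos x hx).ne'
      simp only [Nat.add_sub_cancel]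
      push_cast
      field_simp
      ring
  have h2 : HasFDerivAt (fun y => dens (confM ξ) y • confM ξ y (e i))
      ((((1 - (n : ℝ)) * (ξ x ^ n)⁻¹) • fderiv ℝ ξ x).smulRight (e i)) x := by
    refine (h1.smul_const (e i)).congr_of_eventuallyEq ?_
    filter_upwards [hU.mem_nhds hx] with y hy
    rw [dens_confM y (hpos y hy), confM_apply, smul_smul, mul_comm]
  rw [h2.fderiv, tr_smulRight, dens_confM x (hpos x hx), inv_inv, ContinuousLinearMap.smul_apply,
    smul_eq_mul]
  field_simp [(hn x hx).ne']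
  ring

/-- The inner product with the divergence vector. -/
lemma inner_frameD_confM (hU : IsOpen U) (hξ : ContDiffOn ℝ 2 ξ U) (hpos : ∀ x ∈ U, 0 < ξ x)
    {x : E n} (hx : x ∈ U) (v : E n) :
    ⟪frameD (confM ξ) x, v⟫ = -((n : ℝ) - 1) * fderiv ℝ ξ x v := by
  rw [frameD_confM hU hξ hpos hx, sum_inner, clm_sum (fderiv ℝ ξ x) v, Finset.mul_sum]
  refine Finset.sum_congr rfl fun i _ => ?_
  rw [real_inner_smul_left, e, EuclideanSpace.inner_single_left]
  simp
  ring

/-- The derivative of the divergence vector is the Hessian. -/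
lemma hess_confM (hU : IsOpen U) (hξ : ContDiffOn ℝ 2 ξ U) (hpos : ∀ x ∈ U, 0 < ξ x)
    (hF : Frame U (confM ξ))
    {x : E n} (hx : x ∈ U) (u v : E n) :
    ⟪fderiv ℝ (frameD (confM ξ)) x u, v⟫
    = -((n : ℝ) - 1) * fderiv ℝ (fderiv ℝ ξ) x u v := by
  have hin : ∀ y ∈ U, ⟪frameD (confM ξ) y, v⟫ = -((n : ℝ) - 1) * fderiv ℝ ξ y v :=
    fun y hy => inner_frameD_confM hU hξ hpos hy v
  have h1 : HasFDerivAt (fun y => ⟪frameD (confM ξ) y, v⟫)
      (((innerSL ℝ).flip v).comp (fderiv ℝ (frameD (confM ξ)) x)) x :=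
    ((innerSL ℝ).flip v).hasFDerivAt.comp x (((hF.contDiffOn_frameD.differentiableOn one_ne_zero).differentiableAt
        (hU.mem_nhds hx)).hasFDerivAt)
  have hdd : HasFDerivAt (fderiv ℝ ξ) (fderiv ℝ (fderiv ℝ ξ) x) x :=
    (((hξ.fderiv_of_isOpen hU (m := 1) (by norm_num)).differentiableOn one_ne_zero
      ).differentiableAt (hU.mem_nhds hx)).hasFDerivAt
  have h2 : HasFDerivAt (fun y => ⟪frameD (confM ξ) y, v⟫)
      ((-((n : ℝ) - 1)) • (ContinuousLinearMap.apply ℝ ℝ v).comp (fderiv ℝ (fderiv ℝ ξ) x)) x := by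
    refine (((ContinuousLinearMap.apply ℝ ℝ v).hasFDerivAt.comp x hdd).const_mul
      (-((n : ℝ) - 1))).congr_of_eventuallyEq ?_
    filter_upwards [hU.mem_nhds hx] with y hy
    exact hin y hy
  exact congrArg (fun L => L u) (h1.unique h2)

/-- A positive concave factor gives a frame with potential. -/
theorem potential_confM (hn : 2 ≤ n) (hU : IsOpen U) (hξ : ContDiffOn ℝ 2 ξ U)
    (hc : ConcaveOn ℝ U ξ) (hpos : ∀ x ∈ U, 0 < ξ x) : Potential U (confM ξ) := by
  have hn1 : (0 : ℝ) ≤ (n : ℝ) - 1 := by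
    rw [sub_nonneg]; exact_mod_cast le_trans one_le_two hn
  have hd : ∀ x ∈ U, HasFDerivAt ξ (fderiv ℝ ξ x) x := fun x hx =>
    ((hξ.differentiableOn (by norm_num)).differentiableAt (hU.mem_nhds hx)).hasFDerivAt
  have hfirst : ∀ x ∈ U, ∀ y ∈ U, ξ y ≤ ξ x + fderiv ℝ ξ x (y - x) := by
    intro x hx y hy
    have hl : HasDerivAt (fun t : ℝ => ξ (x + t • (y - x))) (fderiv ℝ ξ x (y - x)) 0 :=
      (hd x hx).comp_hasDerivAt_of_eq (0 : ℝ)
        (by simpa using ((hasDerivAt_id (0 : ℝ)).smul_const (y - x)).const_add x) (by simp)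
    have hcon : ConcaveOn ℝ (Icc (0 : ℝ) 1) fun t : ℝ => ξ (x + t • (y - x)) := by
      refine (hc.comp_affineMap (AffineMap.lineMap x y)).subset ?_ (convex_Icc _ _) |>.congr ?_
      · intro t ht
        exact hc.1.lineMap_mem hx hy ht
      · intro t _
        simp [AffineMap.lineMap_apply_module']
        abel_nf
    have := hcon.slope_le_of_hasDerivWithinAt (x := 0) (y := 1) (by simp) (by simp) one_pos
      hl.hasDerivWithinAt
    simp [slope_def_field] at this
    rw [map_sub]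
    linarith
  have hin := fun x (hx : x ∈ U) => inner_frameD_confM hU hξ hpos hx
  have hF : Frame U (confM ξ) :=
    { isOpen := hU
      convex := hc.1
      smooth := hξ.smul contDiffOn_const
      symm := fun x _ u v => by simp [confM_apply, real_inner_smul_left, real_inner_smul_right]
      pos := fun x hx v hv => by
        rw [confM_apply, real_inner_smul_right, real_inner_self_eq_norm_sq]
        exact mul_pos (hpos x hx) (pow_pos (norm_pos_iff.2 hv) 2) }
  have hmono : ∀ x ∈ U, ∀ y ∈ U, 0 ≤ ⟪frameD (confM ξ) x - frameD (confM ξ) y, x - y⟫ := by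
    intro x hx y hy
    rw [inner_sub_left, hin x hx, hin y hy]
    have h1 := hfirst x hx y hy
    have h2 := hfirst y hy x hx
    rw [← neg_sub x y, map_neg] at h1
    nlinarith
  have hD : ∀ x ∈ U, HasFDerivAt (frameD (confM ξ)) (fderiv ℝ (frameD (confM ξ)) x) x :=
    fun x hx => ((hF.contDiffOn_frameD.differentiableOn one_ne_zero).differentiableAt
      (hU.mem_nhds hx)).hasFDerivAt
  have hsnd := fun x (hx : x ∈ U) => hess_confM hU hξ hpos hF hx
  refine { toFrame := hF, mono := hmono, dsymm := ?_, dpos := ?_ }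
  · intro x hx u v
    rw [confM_apply, confM_apply, map_smul, map_smul, real_inner_smul_left, real_inner_smul_right,
      hsnd x hx, real_inner_comm _ u, hsnd x hx,
      (hξ.contDiffAt (hU.mem_nhds hx)).isSymmSndFDerivAt (by simp)]
  · intro x hx v
    rw [confM_apply, map_smul, real_inner_smul_right]
    refine mul_nonneg (hpos x hx).le ?_
    have hline : HasDerivAt (fun t : ℝ => x + t • v) v 0 := by
      simpa using ((hasDerivAt_id (0 : ℝ)).smul_const v).const_add x
    have h1 : HasDerivAt (fun t : ℝ => ⟪v, frameD (confM ξ) (x + t • v)⟫)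
        ⟪v, fderiv ℝ (frameD (confM ξ)) x v⟫ 0 :=
      (innerSL ℝ v).hasFDerivAt.comp_hasDerivAt (0 : ℝ)
        ((hD x hx).comp_hasDerivAt_of_eq (0 : ℝ) hline (by simp))
    refine ge_of_tendsto ((hasDerivAt_iff_tendsto_slope.1 h1).mono_left
      (nhdsWithin_mono 0 fun t (ht : (0 : ℝ) < t) => ne_of_gt ht : 𝓝[>] (0 : ℝ) ≤ 𝓝[≠] 0)) ?_
    have hmem : ∀ᶠ t : ℝ in 𝓝[>] 0, x + t • v ∈ U :=
      nhdsWithin_le_nhds (hline.continuousAt.preimage_mem_nhds (by simpa using hU.mem_nhds hx))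
    filter_upwards [hmem, self_mem_nhdsWithin] with t ht (ht0 : 0 < t)
    have h2 := hmono _ ht x hx
    rw [add_sub_cancel_left, real_inner_smul_right, real_inner_comm, inner_sub_right] at h2
    simp only [slope_def_field, zero_smul, add_zero, sub_zero]
    exact div_nonneg (nonneg_of_mul_nonneg_right h2 ht0) ht0.le

/-- The numerator of the sectional curvature of `ξ⁻² δ` is nonpositive for concave `ξ`. -/
theorem sec_confM (hn : 2 ≤ n) (hU : IsOpen U) (hξ : ContDiffOn ℝ 2 ξ U)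
    (hc : ConcaveOn ℝ U ξ) (hpos : ∀ x ∈ U, 0 < ξ x) {x : E n} (hx : x ∈ U) (a b : E n) :
    ξ x * (fderiv ℝ (fderiv ℝ ξ) x a a + fderiv ℝ (fderiv ℝ ξ) x b b) - ‖fderiv ℝ ξ x‖ ^ 2
      ≤ 0 := by
  have hP := potential_confM hn hU hξ hc hpos
  have key : ∀ v, fderiv ℝ (fderiv ℝ ξ) x v v ≤ 0 := by
    intro v
    have h1 := hP.dpos x hx v
    rw [confM_apply, map_smul, real_inner_smul_right, real_inner_comm, hess_confM hU hξ hpos hP.toFrame hx v v] at h1
    have h2 := nonneg_of_mul_nonneg_right h1 (hpos x hx)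
    have hn1 : (0 : ℝ) < (n : ℝ) - 1 := by
      rw [sub_pos]; exact_mod_cast hn
    by_contra h
    nlinarith [not_le.1 h]
  nlinarith [key a, key b, hpos x hx, sq_nonneg ‖fderiv ℝ ξ x‖]

end Vale.Agent.P219.Transport
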