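import Vale.Agent.P219.Sobolev

/-!
# P219: a potential transporting a compactly supported a.c. probability measure to the unit ball

`conj ψ z = max_{‖y‖ ≤ 1} (⟪z, y⟫ - ψ y)`. Minimising `∫ conj ψ dμ + ∫ ψ dν` over Lipschitz `ψ`
gives a convex potential whose conjugate has a gradient pushing `μ` to `ν` (Gangbo's proof).
-/

namespace Vale.Agent.P219.Transport

open MeasureTheory Set Filter Topology Metric
open scoped RealInnerProductSpace ENNReal NNReal BoundedContinuousFunction

variable {n : ℕ}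

/-- The closed unit ball. -/
abbrev B (n : ℕ) : Set (E n) := closedBall (0 : E n) 1

/-- The uniform probability measure on the unit ball. -/
noncomputable def unifBall (n : ℕ) : Measure (E n) :=
  (volume (B n))⁻¹ • volume.restrict (B n)

lemma isCompact_B : IsCompact (B n) := isCompact_closedBall _ _

lemma zero_mem_B : (0 : E n) ∈ B n := by simp

lemma volume_B_ne_zero : volume (B n) ≠ 0 :=
  (measure_closedBall_pos volume _ one_pos).ne'

instance : IsProbabilityMeasure (unifBall n) :=
  ⟨by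
    rw [unifBall, Measure.smul_apply, Measure.restrict_apply_univ, smul_eq_mul,
      ENNReal.inv_mul_cancel volume_B_ne_zero isCompact_B.measure_lt_top.ne]⟩

lemma unifBall_B : ∀ᵐ y ∂unifBall n, y ∈ B n :=
  Measure.ae_smul_measure (ae_restrict_mem isCompact_B.measurableSet) _

/-- The conjugate of `ψ` over the unit ball. -/
noncomputable def conj (ψ : E n → ℝ) (z : E n) : ℝ :=
  sSup ((fun y => ⟪z, y⟫ - ψ y) '' B n)

variable {ψ χ : E n → ℝ}

lemma le_conj (hψ : Continuous ψ) (z : E n) {y : E n} (hy : y ∈ B n) :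
    ⟪z, y⟫ - ψ y ≤ conj ψ z :=
  le_csSup (isCompact_B.image (f := fun y => ⟪z, y⟫ - ψ y) (by fun_prop)).bddAbove
    (mem_image_of_mem _ hy)

lemma exists_conj (hψ : Continuous ψ) (z : E n) :
    ∃ y ∈ B n, conj ψ z = ⟪z, y⟫ - ψ y := by
  obtain ⟨y, hy, e⟩ := (isCompact_B.image (f := fun y => ⟪z, y⟫ - ψ y) (by fun_prop)).sSup_mem
    ((nonempty_closedBall.2 zero_le_one).image _)
  exact ⟨y, hy, e.symm⟩

lemma conj_le_add (hψ : Continuous ψ) (hχ : Continuous χ) {c : ℝ}
    (h : ∀ y ∈ B n, ψ y ≤ χ y + c) (z : E n) : conj χ z ≤ conj ψ z + c := by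
  obtain ⟨y, hy, e⟩ := exists_conj hχ z
  linarith [le_conj hψ z hy, h y hy]

lemma convexOn_conj (hψ : Continuous ψ) : ConvexOn ℝ univ (conj ψ) := by
  refine ⟨convex_univ, fun x _ y _ a b ha hb hab => ?_⟩
  obtain ⟨v, hv, e⟩ := exists_conj hψ (a • x + b • y)
  have hv1 : a * ψ v + b * ψ v = ψ v := by rw [← add_mul, hab, one_mul]
  rw [e, inner_add_left, real_inner_smul_left, real_inner_smul_left, smul_eq_mul, smul_eq_mul]
  nlinarith [mul_le_mul_of_nonneg_left (le_conj hψ x hv) ha,
    mul_le_mul_of_nonneg_left (le_conj hψ y hv) hb]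

lemma lipschitz_conj (hψ : Continuous ψ) : LipschitzWith 1 (conj ψ) := by
  refine LipschitzWith.of_le_add fun x y => ?_
  obtain ⟨v, hv, e⟩ := exists_conj hψ x
  have h1 := le_conj hψ y hv
  have h2 : ⟪x, v⟫ - ⟪y, v⟫ ≤ dist x y := by
    rw [← inner_sub_left, dist_eq_norm]
    calc ⟪x - y, v⟫ ≤ ‖x - y‖ * ‖v‖ := real_inner_le_norm _ _
      _ ≤ ‖x - y‖ := mul_le_of_le_one_right (norm_nonneg _) (by simpa using hv)
  linarith

lemma continuous_conj (hψ : Continuous ψ) : Continuous (conj ψ) :=
  (lipschitz_conj hψ).continuous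

/-- A point at which the supremum defining `conj ψ` is attained is a subgradient. -/
lemma subgradient (hψ : Continuous ψ) {z y : E n} (hy : y ∈ B n)
    (e : conj ψ z = ⟪z, y⟫ - ψ y) (v : E n) : conj ψ z + ⟪v, y⟫ ≤ conj ψ (z + v) := by
  have := le_conj hψ (z + v) hy
  rw [inner_add_left] at this
  linarith

/-- The gradient of `conj ψ`. -/
noncomputable def grad (ψ : E n → ℝ) (z : E n) : E n :=
  (InnerProductSpace.toDual ℝ (E n)).symm (fderiv ℝ (conj ψ) z)

lemma measurable_grad (ψ : E n → ℝ) : Measurable (grad ψ) :=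
  (InnerProductSpace.toDual ℝ (E n)).symm.continuous.measurable.comp (measurable_fderiv ℝ _)

lemma grad_mem (hψ : Continuous ψ) (z : E n) : grad ψ z ∈ B n := by
  rw [mem_closedBall_zero_iff, grad, LinearIsometryEquiv.norm_map]
  simpa using norm_fderiv_le_of_lipschitz ℝ (lipschitz_conj hψ) (x₀ := z)

lemma inner_grad (z v : E n) : ⟪v, grad ψ z⟫ = fderiv ℝ (conj ψ) z v := by
  rw [real_inner_comm, grad, InnerProductSpace.toDual_symm_apply]

/-- At points of differentiability the maximiser is unique and equals the gradient. -/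
lemma eq_grad (hψ : Continuous ψ) {z y : E n} (hd : DifferentiableAt ℝ (conj ψ) z)
    (hy : y ∈ B n) (e : conj ψ z = ⟪z, y⟫ - ψ y) : y = grad ψ z := by
  refine ext_inner_left ℝ fun v => ?_
  rw [inner_grad]
  have key : ∀ v : E n, ⟪v, y⟫ ≤ fderiv ℝ (conj ψ) z v := by
    intro v
    have hl : HasLineDerivAt ℝ (conj ψ) (fderiv ℝ (conj ψ) z v) z v :=
      hd.hasFDerivAt.hasLineDerivAt v
    refine le_of_tendsto_of_tendsto tendsto_const_nhds hl.tendsto_slope_zero_right ?_
    filter_upwards [self_mem_nhdsWithin] with t (ht : (0 : ℝ) < t)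
    have h := subgradient hψ hy e (t • v)
    rw [real_inner_smul_left] at h
    rw [smul_eq_mul, le_inv_mul_iff₀ ht]
    linarith
  refine le_antisymm (key v) ?_
  have := key (-v)
  rw [inner_neg_left, map_neg] at this
  linarith

lemma exists_unique_max (hψ : Continuous ψ) {z : E n} (hd : DifferentiableAt ℝ (conj ψ) z) :
    conj ψ z = ⟪z, grad ψ z⟫ - ψ (grad ψ z) := by
  obtain ⟨y, hy, e⟩ := exists_conj hψ z
  rwa [← eq_grad hψ hd hy e]

lemma ae_differentiable (hψ : Continuous ψ) :
    ∀ᵐ z, DifferentiableAt ℝ (conj ψ) z :=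
  (lipschitz_conj hψ).ae_differentiableAt

/-- Danskin: the derivative of `t ↦ conj (ψ + t h) z` at a point of differentiability. -/
lemma tendsto_conj (hψ : Continuous ψ) {h : E n → ℝ} (hh : Continuous h) {z : E n}
    (hd : DifferentiableAt ℝ (conj ψ) z) {t : ℕ → ℝ} (ht : ∀ k, 0 < t k)
    (ht0 : Tendsto t atTop (𝓝 0)) :
    Tendsto (fun k => (conj (fun y => ψ y + t k * h y) z - conj ψ z) / t k) atTop
      (𝓝 (-h (grad ψ z))) := by
  have hc : ∀ k, Continuous fun y => ψ y + t k * h y := fun k => by fun_prop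
  choose y hy ey using fun k => exists_conj (hc k) z
  have hlim : Tendsto y atTop (𝓝 (grad ψ z)) := by
    refine tendsto_of_subseq_tendsto fun ns hns => ?_
    obtain ⟨a, ha, φ, hφ, hl⟩ := isCompact_B.tendsto_subseq fun k => hy (ns k)
    refine ⟨φ, ?_⟩
    have hk : Tendsto (fun k => ns (φ k)) atTop atTop := hns.comp hφ.tendsto_atTop
    obtain ⟨y0, hy0, e0⟩ := exists_conj hψ z
    have h1 : ∀ k, ⟪z, y0⟫ - ψ y0 - t (ns (φ k)) * h y0
        ≤ ⟪z, y (ns (φ k))⟫ - ψ (y (ns (φ k))) - t (ns (φ k)) * h (y (ns (φ k))) := by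
      intro k
      have := le_conj (hc (ns (φ k))) z hy0
      rw [ey (ns (φ k))] at this
      linarith
    have hl' : Tendsto (fun k => y (ns (φ k))) atTop (𝓝 a) := hl
    have h2 := le_of_tendsto_of_tendsto'
      (tendsto_const_nhds.sub ((ht0.comp hk).mul_const (h y0)))
      (((tendsto_const_nhds.inner hl').sub ((hψ.tendsto a).comp hl')).sub
        ((ht0.comp hk).mul ((hh.tendsto a).comp hl'))) h1
    simp only [zero_mul, sub_zero] at h2
    rw [← e0] at h2
    have ea : conj ψ z = ⟪z, a⟫ - ψ a := le_antisymm h2 (le_conj hψ z ha)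
    rw [← eq_grad hψ hd ha ea]
    exact hl
  have hup : ∀ k, (conj (fun y => ψ y + t k * h y) z - conj ψ z) / t k ≤ -h (y k) := by
    intro k
    rw [div_le_iff₀ (ht k), ey k]
    linarith [le_conj hψ z (hy k)]
  have hlo : ∀ k, -h (grad ψ z) ≤ (conj (fun y => ψ y + t k * h y) z - conj ψ z) / t k := by
    intro k
    rw [le_div_iff₀ (ht k), exists_unique_max hψ hd]
    have := le_conj (hc k) z (grad_mem hψ z)
    linarith
  exact tendsto_of_tendsto_of_tendsto_of_le_of_le tendsto_const_nhds
    ((hh.tendsto _).comp hlim).neg hlo hup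

/-- The functional of Kantorovich's dual problem. -/
noncomputable def J (μ : Measure (E n)) (ψ : E n → ℝ) : ℝ :=
  (∫ z, conj ψ z ∂μ) + ∫ y, ψ y ∂unifBall n

variable {μ : Measure (E n)} {R : ℝ≥0}

lemma integrable_of_ae_mem {F : Type*} [NormedAddCommGroup F] [IsFiniteMeasure μ]
    {K : Set (E n)} (hK : IsCompact K) (hμK : ∀ᵐ z ∂μ, z ∈ K) {f : E n → F} (hf : Continuous f) :
    Integrable f μ := by
  have h := hf.continuousOn.integrableOn_compact hK (μ := μ)
  rwa [IntegrableOn, Measure.restrict_eq_self_of_ae_mem hμK] at h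

/-- Replacing `ψ` by the double conjugate over a ball containing the support does not increase
the functional. -/
lemma improve [IsProbabilityMeasure μ] (hμK : ∀ᵐ z ∂μ, z ∈ closedBall (0 : E n) R)
    (hψ : Continuous ψ) :
    ∃ χ : E n → ℝ, ConvexOn ℝ univ χ ∧ LipschitzWith R χ ∧ J μ χ ≤ J μ ψ := by
  set K := closedBall (0 : E n) (R : ℝ)
  have hK : IsCompact K := isCompact_closedBall _ _
  set χ : E n → ℝ := fun y => sSup ((fun z => ⟪z, y⟫ - conj ψ z) '' K)
  have hbd : ∀ y, BddAbove ((fun z => ⟪z, y⟫ - conj ψ z) '' K) := fun y =>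
    (hK.image ((continuous_id.inner continuous_const).sub (continuous_conj hψ))).bddAbove
  have hne : K.Nonempty := nonempty_closedBall.2 R.2
  have hle : ∀ y, ∀ z ∈ K, ⟪z, y⟫ - conj ψ z ≤ χ y := fun y z hz =>
    le_csSup (hbd y) (mem_image_of_mem _ hz)
  have hex : ∀ y, ∃ z ∈ K, χ y = ⟪z, y⟫ - conj ψ z := fun y => by
    obtain ⟨z, hz, e⟩ := (hK.image
      ((continuous_id.inner continuous_const).sub (continuous_conj hψ))).sSup_mem
      (hne.image _)
    exact ⟨z, hz, e.symm⟩
  have hlip : LipschitzWith R χ := by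
    refine LipschitzWith.of_le_add_mul R fun x y => ?_
    obtain ⟨z, hz, e⟩ := hex x
    have h2 : ⟪z, x⟫ - ⟪z, y⟫ ≤ R * dist x y := by
      rw [← inner_sub_right, dist_eq_norm]
      refine (real_inner_le_norm _ _).trans (mul_le_mul_of_nonneg_right ?_ (norm_nonneg _))
      simpa [K] using hz
    linarith [hle y z hz]
  refine ⟨χ, ?_, hlip, ?_⟩
  · refine ⟨convex_univ, fun x _ y _ a b ha hb hab => ?_⟩
    obtain ⟨z, hz, e⟩ := hex (a • x + b • y)
    have hz1 : a * conj ψ z + b * conj ψ z = conj ψ z := by rw [← add_mul, hab, one_mul]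
    rw [e, inner_add_right, real_inner_smul_right, real_inner_smul_right, smul_eq_mul,
      smul_eq_mul]
    nlinarith [mul_le_mul_of_nonneg_left (hle x z hz) ha,
      mul_le_mul_of_nonneg_left (hle y z hz) hb]
  · refine add_le_add (integral_mono_ae (integrable_of_ae_mem hK hμK
        (continuous_conj hlip.continuous)) (integrable_of_ae_mem hK hμK (continuous_conj hψ))
        (hμK.mono fun z hz => ?_))
      (integral_mono_ae (integrable_of_ae_mem isCompact_B unifBall_B hlip.continuous)
        (integrable_of_ae_mem isCompact_B unifBall_B hψ) (unifBall_B.mono fun y hy => ?_))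
    · obtain ⟨y, hy, e⟩ := exists_conj hlip.continuous z
      linarith [hle y z hz]
    · obtain ⟨z, -, e⟩ := hex y
      linarith [le_conj hψ z hy]

lemma J_add_const [IsProbabilityMeasure μ] (hμK : ∀ᵐ z ∂μ, z ∈ closedBall (0 : E n) R)
    (hψ : Continuous ψ) (c : ℝ) : J μ (fun y => ψ y + c) = J μ ψ := by
  have e : ∀ z, conj (fun y => ψ y + c) z = conj ψ z - c := by
    intro z
    have h1 := conj_le_add (χ := fun y => ψ y + c) hψ (by fun_prop) (c := -c)
      (fun y _ => by linarith) z
    have h2 := conj_le_add (ψ := fun y => ψ y + c) (by fun_prop) hψ (c := c)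
      (fun y _ => le_rfl) z
    linarith
  simp only [J, e]
  rw [integral_sub (integrable_of_ae_mem (isCompact_closedBall _ _) hμK (continuous_conj hψ))
      (integrable_const _),
    integral_add (integrable_of_ae_mem isCompact_B unifBall_B hψ) (integrable_const _)]
  simp

/-- A convex minimiser of the dual problem. -/
lemma exists_min [IsProbabilityMeasure μ] (hμK : ∀ᵐ z ∂μ, z ∈ closedBall (0 : E n) R) :
    ∃ ψ : E n → ℝ, ConvexOn ℝ univ ψ ∧ LipschitzWith R ψ ∧
      ∀ χ : E n → ℝ, Continuous χ → J μ ψ ≤ J μ χ := by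
  have : CompactSpace (B n) := isCompact_iff_compactSpace.1 isCompact_B
  set A : Set (↥(B n) →ᵇ ℝ) :=
    {f | LipschitzWith R f ∧ f ⟨0, zero_mem_B⟩ = 0} with hAdef
  have hA : IsCompact A := by
    refine BoundedContinuousFunction.arzela_ascoli₂ (Icc (-(R : ℝ)) R) isCompact_Icc A ?_ ?_ ?_
    · have e : A = (⋂ x, ⋂ y, {f : ↥(B n) →ᵇ ℝ | dist (f x) (f y) ≤ R * dist x y})
          ∩ {f | f ⟨0, zero_mem_B⟩ = 0} := by
        ext f; simp [hAdef, lipschitzWith_iff_dist_le_mul]
      rw [e]
      refine (isClosed_iInter fun x => isClosed_iInter fun y => isClosed_le ?_ ?_).inter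
        (isClosed_eq (continuous_eval_const _) continuous_const)
      · exact (continuous_eval_const _).dist (continuous_eval_const _)
      · exact continuous_const
    · intro f x hf
      have h := hf.1.dist_le_mul x ⟨0, zero_mem_B⟩
      rw [hf.2, dist_zero_right, Real.norm_eq_abs] at h
      have hx : dist x ⟨0, zero_mem_B⟩ ≤ 1 := x.2
      rw [mem_Icc, ← abs_le]
      exact h.trans (mul_le_of_le_one_right R.2 hx)
    · exact (LipschitzWith.uniformEquicontinuous (fun f : A => ⇑(f : ↥(B n) →ᵇ ℝ)) R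
        fun f => f.2.1).equicontinuous
  have hext : ∀ f : ↥(B n) →ᵇ ℝ, ∃ F : C(E n, ℝ), ∀ y : ↥(B n), F y = f y := fun f => by
    obtain ⟨F, hF⟩ := ContinuousMap.exists_restrict_eq isCompact_B.isClosed f.toContinuousMap
    exact ⟨F, fun y => congrArg (fun g : C(↥(B n), ℝ) => g y) hF⟩
  choose ext hext using hext
  set Φ : (↥(B n) →ᵇ ℝ) → ℝ := fun f => J μ (ext f)
  have hΦ : LipschitzWith 2 Φ := by
    refine LipschitzWith.of_le_add_mul 2 fun f g => ?_
    have hd : ∀ y ∈ B n, ext f y ≤ ext g y + dist f g := fun y hy => by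
      rw [hext f ⟨y, hy⟩, hext g ⟨y, hy⟩]
      linarith [(Real.dist_eq _ _ ▸ f.dist_coe_le_dist (g := g) ⟨y, hy⟩ :
        |f ⟨y, hy⟩ - g ⟨y, hy⟩| ≤ dist f g), le_abs_self (f ⟨y, hy⟩ - g ⟨y, hy⟩)]
    have hd' : ∀ y ∈ B n, ext g y ≤ ext f y + dist f g := fun y hy => by
      rw [hext f ⟨y, hy⟩, hext g ⟨y, hy⟩]
      linarith [(Real.dist_eq _ _ ▸ f.dist_coe_le_dist (g := g) ⟨y, hy⟩ :
        |f ⟨y, hy⟩ - g ⟨y, hy⟩| ≤ dist f g), neg_le_abs (f ⟨y, hy⟩ - g ⟨y, hy⟩)]
    have hK := isCompact_closedBall (0 : E n) (R : ℝ)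
    have i1 : ∀ f : ↥(B n) →ᵇ ℝ, Integrable (conj (ext f)) μ := fun f =>
      integrable_of_ae_mem hK hμK (continuous_conj (ext f).continuous)
    have i2 : ∀ f : ↥(B n) →ᵇ ℝ, Integrable (ext f) (unifBall n) := fun f =>
      integrable_of_ae_mem isCompact_B unifBall_B (ext f).continuous
    have h1 : ∫ z, conj (ext f) z ∂μ ≤ (∫ z, conj (ext g) z ∂μ) + dist f g := by
      refine (integral_mono (i1 f) ((i1 g).add (integrable_const _))
        fun z => conj_le_add (ext g).continuous (ext f).continuous hd' z).trans_eq ?_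
      simp only [Pi.add_apply]
      rw [integral_add (i1 g) (integrable_const _), integral_const]; simp
    have h2 : ∫ y, ext f y ∂unifBall n ≤ (∫ y, ext g y ∂unifBall n) + dist f g := by
      refine (integral_mono_ae (i2 f) ((i2 g).add (integrable_const _))
        (unifBall_B.mono hd)).trans_eq ?_
      simp only [Pi.add_apply]
      rw [integral_add (i2 g) (integrable_const _), integral_const]; simp
    simp only [Φ, J]
    push_cast
    linarith
  obtain ⟨g, hg, hgmin⟩ := hA.exists_isMinOn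
    ⟨0, ⟨LipschitzWith.const' 0, rfl⟩⟩ hΦ.continuous.continuousOn
  obtain ⟨ψ, hψc, hψl, hψle⟩ := improve hμK (ext g).continuous
  refine ⟨ψ, hψc, hψl, fun χ hχ => hψle.trans ?_⟩
  obtain ⟨χ', -, hχl, hχle⟩ := improve hμK hχ
  refine le_trans ?_ hχle
  set f : ↥(B n) →ᵇ ℝ := BoundedContinuousFunction.mkOfCompact
    ⟨fun y => χ' y - χ' 0, (hχl.continuous.comp continuous_subtype_val).sub continuous_const⟩
  have hf : f ∈ A := by
    refine ⟨lipschitzWith_iff_dist_le_mul.2 fun x y => ?_, sub_self _⟩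
    show dist (χ' x - χ' 0) (χ' y - χ' 0) ≤ _
    rw [dist_sub_right]
    exact hχl.dist_le_mul (x : E n) y
  refine (hgmin hf).trans_eq ?_
  have h2 := J_add_const hμK hχl.continuous (-χ' 0)
  rw [← h2]
  have hs : ∀ y ∈ B n, ext f y = χ' y + -χ' 0 := fun y hy => by
    rw [hext f ⟨y, hy⟩]; exact sub_eq_add_neg _ _
  show J μ (ext f) = _
  simp only [J]
  congr 1
  · refine congrArg (fun F : E n → ℝ => ∫ z, F z ∂μ) (funext fun z => ?_)
    refine congrArg sSup (image_congr fun y hy => ?_)
    rw [hs y hy]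
  · exact integral_congr_ae (unifBall_B.mono hs)

/-- The potential: the gradient of its conjugate pushes `μ` to the uniform measure on the ball. -/
theorem exists_potential [IsProbabilityMeasure μ] (hac : μ ≪ volume)
    (hμK : ∀ᵐ z ∂μ, z ∈ closedBall (0 : E n) R) :
    ∃ ψ : E n → ℝ, ConvexOn ℝ univ ψ ∧ Continuous ψ ∧ μ.map (grad ψ) = unifBall n := by
  obtain ⟨ψ, hψc, hψl, hmin⟩ := exists_min hμK
  have hψ := hψl.continuous
  refine ⟨ψ, hψc, hψ, ?_⟩
  have := Measure.isProbabilityMeasure_map (μ := μ) (measurable_grad ψ).aemeasurable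
  have hd : ∀ᵐ z ∂μ, DifferentiableAt ℝ (conj ψ) z := hac.ae_le (ae_differentiable hψ)
  have hK := isCompact_closedBall (0 : E n) (R : ℝ)
  have hone : ∀ h : E n → ℝ, Continuous h → ∀ Bd : ℝ, (∀ y, |h y| ≤ Bd) →
      ∫ z, h (grad ψ z) ∂μ ≤ ∫ y, h y ∂unifBall n := by
    intro h hh Bd hB
    set t : ℕ → ℝ := fun k => 1 / ((k : ℝ) + 1)
    have ht : ∀ k, 0 < t k := fun k => by simp only [t]; positivity
    have hlim := tendsto_integral_of_dominated_convergence (μ := μ) (fun _ => Bd)
      (F := fun k z => (conj (fun y => ψ y + t k * h y) z - conj ψ z) / t k)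
      (fun k => (((continuous_conj (by fun_prop)).sub (continuous_conj hψ)).div_const
        _).aestronglyMeasurable) (integrable_const _) (fun k => ae_of_all _ fun z => ?_)
      (hd.mono fun z hz => tendsto_conj hψ hh hz ht tendsto_one_div_add_atTop_nhds_zero_nat)
    · rw [integral_neg] at hlim
      have hk : ∀ k, -(∫ y, h y ∂unifBall n)
          ≤ ∫ z, (conj (fun y => ψ y + t k * h y) z - conj ψ z) / t k ∂μ := by
        intro k
        have hc : Continuous fun y => ψ y + t k * h y := by fun_prop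
        have hm := hmin _ hc
        simp only [J] at hm
        rw [integral_add (integrable_of_ae_mem isCompact_B unifBall_B hψ)
          ((integrable_of_ae_mem isCompact_B unifBall_B hh).const_mul _),
          integral_const_mul] at hm
        rw [integral_div, le_div_iff₀ (ht k), integral_sub
          (integrable_of_ae_mem hK hμK (continuous_conj hc))
          (integrable_of_ae_mem hK hμK (continuous_conj hψ))]
        linarith
      linarith [ge_of_tendsto' hlim hk]
    · have hc : Continuous fun y => ψ y + t k * h y := by fun_prop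
      have h1 := conj_le_add hψ hc (c := t k * Bd) (fun y _ => by
        nlinarith [ht k, neg_le_of_abs_le (hB y)]) z
      have h2 := conj_le_add hc hψ (c := t k * Bd) (fun y _ => by
        nlinarith [ht k, le_of_abs_le (hB y)]) z
      rw [Real.norm_eq_abs, abs_div, abs_of_pos (ht k), div_le_iff₀ (ht k), abs_le]
      constructor <;> linarith
  refine ext_of_forall_integral_eq_of_IsFiniteMeasure fun f => ?_
  rw [integral_map (measurable_grad ψ).aemeasurable f.continuous.aestronglyMeasurable]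
  have hb : ∀ y, |f y| ≤ ‖f‖ := fun y => f.norm_coe_le_norm y
  refine le_antisymm (hone f f.continuous _ hb) ?_
  have h2 := hone (fun y => -f y) f.continuous.neg ‖f‖ fun y => by rw [abs_neg]; exact hb y
  rw [integral_neg, integral_neg] at h2
  linarith

end Vale.Agent.P219.Transport
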