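import Vale.Agent.P219.Transport.Reg
import Vale.Agent.P219.Conformal

/-!
# P219: frames, their divergence vector, and two calculus lemmas

`M x` sends the standard basis to an orthonormal frame of the metric, `dens M` is its volume
density and `frameD M` is the vector of the divergences of the frame fields.
-/

namespace Vale.Agent.P219.Transport

open MeasureTheory Set Filter Topology Metric
open scoped RealInnerProductSpace ENNReal NNReal ContDiff

variable {n : ℕ}

/-- The volume density of the metric with orthonormal frame `M · eᵢ`. -/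
noncomputable def dens (M : E n → E n →L[ℝ] E n) (x : E n) : ℝ := |(M x).det|⁻¹

/-- The divergences of the frame fields `M · eᵢ` for the volume `dens M`. -/
noncomputable def frameD (M : E n → E n →L[ℝ] E n) (x : E n) : E n :=
  ∑ i, ((dens M x)⁻¹ * tr (fderiv ℝ (fun y => dens M y • M y (e i)) x)) • e i

lemma tr_smulRight (c : E n →L[ℝ] ℝ) (v : E n) : tr (c.smulRight v) = c v := by
  rw [tr_eq_sum, clm_sum c v]
  refine Finset.sum_congr rfl fun i _ => ?_
  simp [e, mul_comm]

lemma tr_add (A A' : E n →L[ℝ] E n) : tr (A + A') = tr A + tr A' := by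
  simp [tr]

lemma tr_smul (c : ℝ) (A : E n →L[ℝ] E n) : tr (c • A) = c * tr A := by
  simp [tr]

lemma tr_finsum {ι : Type*} (s : Finset ι) (A : ι → E n →L[ℝ] E n) :
    tr (∑ i ∈ s, A i) = ∑ i ∈ s, tr (A i) := by
  simp [tr]

lemma e_apply (i j : Fin n) : (e i) j = if j = i then (1 : ℝ) else 0 := by simp [e]

lemma sum_e_coord (a : Fin n → ℝ) (j : Fin n) : (∑ i, a i • e i) j = a j := by
  simp [e_apply]

lemma contDiff_det {k : ℕ∞} : ContDiff ℝ k fun A : E n →L[ℝ] E n => A.det := by
  have e1 : (fun A : E n →L[ℝ] E n => A.det) = fun A => ∑ σ : Equiv.Perm (Fin n),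
      ((Equiv.Perm.sign σ : ℤ) : ℝ) * ∏ i, A (EuclideanSpace.single i (1 : ℝ)) (σ i) := by
    funext A
    rw [det_eq_mat, Matrix.det_apply']
    simp [mat_apply]
  rw [e1]
  refine ContDiff.sum fun σ _ => contDiff_const.mul (contDiff_prod fun i _ => ?_)
  exact ((EuclideanSpace.proj (σ i) : E n →L[ℝ] ℝ).comp
    (ContinuousLinearMap.apply ℝ (E n) (EuclideanSpace.single i (1 : ℝ)))).contDiff

variable {M : E n → E n →L[ℝ] E n} {U : Set (E n)}

/-- `M` is a `C²` field of symmetric positive operators on `U`. -/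
structure Frame (U : Set (E n)) (M : E n → E n →L[ℝ] E n) : Prop where
  isOpen : IsOpen U
  convex : Convex ℝ U
  smooth : ContDiffOn ℝ 2 M U
  symm : ∀ x ∈ U, ∀ u v, ⟪M x u, v⟫ = ⟪u, M x v⟫
  pos : ∀ x ∈ U, ∀ v, v ≠ 0 → 0 < ⟪v, M x v⟫

namespace Frame

variable (hF : Frame U M) {x : E n}
include hF

lemma det_pos (hx : x ∈ U) : 0 < (M x).det :=
  Transport.det_pos (hF.symm x hx) (hF.pos x hx)

lemma dens_eq (hx : x ∈ U) : dens M x = ((M x).det)⁻¹ := by
  rw [dens, abs_of_pos (hF.det_pos hx)]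

lemma dens_pos (hx : x ∈ U) : 0 < dens M x := by
  rw [hF.dens_eq hx]; exact inv_pos.2 (hF.det_pos hx)

lemma contDiffOn_dens : ContDiffOn ℝ 2 (dens M) U :=
  ((contDiff_det.comp_contDiffOn hF.smooth).inv fun _ hy => (hF.det_pos hy).ne').congr
    fun _ hy => hF.dens_eq hy

lemma contDiffOn_field (i : Fin n) : ContDiffOn ℝ 2 (fun y => dens M y • M y (e i)) U :=
  hF.contDiffOn_dens.smul (hF.smooth.clm_apply contDiffOn_const)

lemma contDiffOn_frameD : ContDiffOn ℝ 1 (frameD M) U := by
  refine ContDiffOn.sum fun i _ => ContDiffOn.smul_const ?_ _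
  refine ((hF.contDiffOn_dens.inv fun y hy => (hF.dens_pos hy).ne').of_le one_le_two).mul ?_
  have h : ContDiff ℝ 1 fun A : E n →L[ℝ] E n => tr A := by
    simp only [tr_eq_sum]
    exact ContDiff.sum fun j _ => ((EuclideanSpace.proj j : E n →L[ℝ] ℝ).comp
      (ContinuousLinearMap.apply ℝ (E n) (EuclideanSpace.single j (1 : ℝ)))).contDiff
  exact h.comp_contDiffOn ((hF.contDiffOn_field i).fderiv_of_isOpen hF.isOpen (by norm_num))

lemma tr_field (hx : x ∈ U) (i : Fin n) :
    tr (fderiv ℝ (fun y => dens M y • M y (e i)) x) = dens M x * (frameD M x) i := by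
  rw [frameD, sum_e_coord, ← mul_assoc, mul_inv_cancel₀ (hF.dens_pos hx).ne', one_mul]

end Frame

/-- The divergence of a compactly supported Lipschitz field has vanishing integral. -/
lemma integral_tr_fderiv_eq_zero {h : E n → E n} {K : ℝ≥0} (hh : LipschitzWith K h)
    (hc : HasCompactSupport h) :
    Integrable (fun x => tr (fderiv ℝ h x)) ∧ ∫ x, tr (fderiv ℝ h x) = 0 := by
  have hsupp : HasCompactSupport (fderiv ℝ h) := hc.fderiv ℝ
  have hint : ∀ j, Integrable fun x => (fderiv ℝ h x (e j)) j := fun j => by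
    refine Integrable.mono' (g := (tsupport (fderiv ℝ h)).indicator fun _ => (K : ℝ))
      ((integrable_indicator_iff hsupp.isCompact.measurableSet).2
        (integrableOn_const hsupp.isCompact.measure_lt_top.ne))
      ((EuclideanSpace.proj j).continuous.measurable.comp
        (measurable_fderiv_apply_const ℝ h (e j))).aestronglyMeasurable (ae_of_all _ fun x => ?_)
    by_cases hx : x ∈ tsupport (fderiv ℝ h)
    · rw [indicator_of_mem hx]
      refine (PiLp.norm_apply_le _ j).trans (((fderiv ℝ h x).le_opNorm _).trans ?_)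
      rw [show ‖e j‖ = 1 by simp [e], mul_one]
      exact norm_fderiv_le_of_lipschitz ℝ hh
    · rw [indicator_of_notMem hx, image_eq_zero_of_notMem_tsupport hx]
      simp
  have htr : (fun x => tr (fderiv ℝ h x)) = fun x => ∑ j, (fderiv ℝ h x (e j)) j :=
    funext fun x => tr_eq_sum _
  rw [htr]
  refine ⟨integrable_finsetSum _ fun j _ => hint j, ?_⟩
  rw [integral_finsetSum _ fun j _ => hint j]
  refine Finset.sum_eq_zero fun j _ => ?_
  have hj : LipschitzWith (‖(EuclideanSpace.proj j : E n →L[ℝ] ℝ)‖₊ * K) fun x => h x j :=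
    (EuclideanSpace.proj j : E n →L[ℝ] ℝ).lipschitz.comp hh
  have hjc : HasCompactSupport fun x => h x j :=
    hc.comp_left (g := fun v : E n => v j) rfl
  have h0 := LipschitzWith.integral_lineDeriv_mul_eq (μ := volume)
    (LipschitzWith.const' (1 : ℝ) : LipschitzWith 0 fun _ : E n => (1 : ℝ)) hj hjc (-e j)
  simp only [neg_neg, mul_one] at h0
  have h1 : ∫ x, lineDeriv ℝ (fun y => h y j) x (e j) = 0 := by
    rw [← h0]
    simp [lineDeriv]
  rw [← h1]
  refine integral_congr_ae ?_
  filter_upwards [hh.ae_differentiableAt] with x hx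
  have hd : HasFDerivAt (fun y => h y j)
      ((EuclideanSpace.proj j : E n →L[ℝ] ℝ).comp (fderiv ℝ h x)) x :=
    (EuclideanSpace.proj j : E n →L[ℝ] ℝ).hasFDerivAt.comp x hx.hasFDerivAt
  rw [(hd.hasLineDerivAt (e j)).lineDeriv]
  rfl

/-- A bounded Lipschitz scalar times a compactly supported `C¹` field is Lipschitz. -/
lemma lipschitz_smul_field {a : E n → ℝ} {W : E n → E n} {K : ℝ≥0} (ha : LipschitzWith K a)
    (hb : ∀ x, |a x| ≤ 1) (hW : ContDiff ℝ 1 W) (hWc : HasCompactSupport W) :
    ∃ K', LipschitzWith K' fun x => a x • W x := by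
  obtain ⟨L, hL⟩ := hW.lipschitzWith_of_hasCompactSupport hWc one_ne_zero
  obtain ⟨C, hC⟩ := hW.continuous.bounded_above_of_compact_support hWc
  have hC0 : 0 ≤ C := (norm_nonneg _).trans (hC 0)
  refine ⟨(K * C + L : ℝ).toNNReal, LipschitzWith.of_dist_le_mul fun x y => ?_⟩
  rw [Real.coe_toNNReal _ (by positivity), dist_eq_norm,
    show a x • W x - a y • W y = (a x - a y) • W x + a y • (W x - W y) by module]
  refine (norm_add_le _ _).trans ?_
  rw [norm_smul, norm_smul, add_mul]
  refine add_le_add ?_ ?_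
  · rw [show (K : ℝ) * C * dist x y = (K * dist x y) * C by ring]
    exact mul_le_mul (by simpa [Real.dist_eq] using ha.dist_le_mul x y) (hC x) (norm_nonneg _)
      (by positivity)
  · rw [← dist_eq_norm, Real.norm_eq_abs, ← one_mul ((L : ℝ) * dist x y)]
    exact mul_le_mul (hb y) (hL.dist_le_mul x y) dist_nonneg zero_le_one

lemma tendsto_yreg {ψ : E n → ℝ} (hc : ConvexOn ℝ univ ψ) (hψ : Continuous ψ) {z : E n}
    (hd : DifferentiableAt ℝ (conj ψ) z) {l : ℕ → ℝ} (hl : Tendsto l atTop (𝓝 0)) :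
    Tendsto (fun k => yreg ψ (l k) z) atTop (𝓝 (grad ψ z)) := by
  refine tendsto_of_subseq_tendsto fun ns hns => ?_
  obtain ⟨a, ha, φ, hφ, hlim⟩ := isCompact_B.tendsto_subseq
    fun k => (yreg_spec (l := l (ns k)) hψ z).1
  refine ⟨φ, ?_⟩
  have hk : Tendsto (fun k => ns (φ k)) atTop atTop := hns.comp hφ.tendsto_atTop
  have hlim' : Tendsto (fun k => yreg ψ (l (ns (φ k))) z) atTop (𝓝 a) := hlim
  have hres : Tendsto (fun k => res ψ (l (ns (φ k))) z) atTop (𝓝 z) := by
    have := tendsto_const_nhds (x := z).sub ((hl.comp hk).smul hlim')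
    simpa [res, zero_smul] using this
  have h1 : Tendsto (fun k => conj ψ (res ψ (l (ns (φ k))) z)) atTop (𝓝 (conj ψ z)) :=
    ((continuous_conj hψ).tendsto z).comp hres
  have h2 : Tendsto (fun k => conj ψ (res ψ (l (ns (φ k))) z)) atTop (𝓝 (⟪z, a⟫ - ψ a)) :=
    ((hres.inner hlim').sub ((hψ.tendsto a).comp hlim')).congr
      fun k => (res_max hc hψ z).symm
  rw [← eq_grad hψ hd ha (tendsto_nhds_unique h1 h2)]
  exact hlim'

end Vale.Agent.P219.Transport
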