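import Vale.Agent.P219.Transport.Frame

/-!
# P219: the inequality for one open set

For an open set `A` with compact closure in `U`, transport the normalised volume of `A`, read in
the coordinates `X = frameD M + δ • id`, to the unit ball by a gradient `τ`. The divergence
theorem for the field `dens M • M (τ ∘ X)` gives the inequality with the error term
`∫_A ⟪τ, frameD M⟫`, which is at least `-δ ∫_A ‖x‖`.
-/

namespace Vale.Agent.P219.Transport

open MeasureTheory Set Filter Topology Metric
open scoped RealInnerProductSpace ENNReal NNReal ContDiff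

variable {n : ℕ} {M : E n → E n →L[ℝ] E n} {U : Set (E n)}

/-- The hypotheses: a frame whose divergence vector is monotone, with symmetric positive
derivative along the frame. -/
structure Potential (U : Set (E n)) (M : E n → E n →L[ℝ] E n) : Prop extends Frame U M where
  mono : ∀ x ∈ U, ∀ y ∈ U, 0 ≤ ⟪frameD M x - frameD M y, x - y⟫
  dsymm : ∀ x ∈ U, ∀ u v, ⟪fderiv ℝ (frameD M) x (M x u), v⟫
    = ⟪u, fderiv ℝ (frameD M) x (M x v)⟫
  dpos : ∀ x ∈ U, ∀ v, 0 ≤ ⟪v, fderiv ℝ (frameD M) x (M x v)⟫

/-- The coordinates in which the transport is made. -/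
noncomputable def coord (M : E n → E n →L[ℝ] E n) (δ : ℝ) (x : E n) : E n := frameD M x + δ • x

/-- The derivative of `coord`. -/
noncomputable def dcoord (M : E n → E n →L[ℝ] E n) (δ : ℝ) (x : E n) : E n →L[ℝ] E n :=
  fderiv ℝ (frameD M) x + δ • ContinuousLinearMap.id ℝ (E n)

namespace Potential

variable (hP : Potential U M) {δ : ℝ} {x : E n}
include hP

lemma hasFDerivAt_coord (hx : x ∈ U) : HasFDerivAt (coord M δ) (dcoord M δ x) x :=
  ((hP.contDiffOn_frameD.differentiableOn one_ne_zero).differentiableAt
    (hP.isOpen.mem_nhds hx)).hasFDerivAt.add ((hasFDerivAt_id x).const_smul δ)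

lemma contDiffOn_coord : ContDiffOn ℝ 1 (coord M δ) U :=
  hP.contDiffOn_frameD.add (contDiffOn_id.const_smul δ)

lemma continuousOn_dcoord : ContinuousOn (dcoord M δ) U :=
  (hP.contDiffOn_frameD.continuousOn_fderiv_of_isOpen hP.isOpen le_rfl).add continuousOn_const

lemma injOn_coord (hδ : 0 < δ) : InjOn (coord M δ) U := by
  intro x hx y hy h
  have h1 : frameD M x - frameD M y = -(δ • (x - y)) := by
    have h2 := sub_eq_zero.2 h
    simp only [coord] at h2
    linear_combination (norm := module) h2
  have h3 := hP.mono x hx y hy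
  rw [h1, inner_neg_left, real_inner_smul_left, real_inner_self_eq_norm_sq] at h3
  have h4 : ‖x - y‖ ^ 2 = 0 := by nlinarith [sq_nonneg ‖x - y‖]
  simpa [sub_eq_zero] using h4

lemma comp_symm (hx : x ∈ U) (u v : E n) :
    ⟪(dcoord M δ x).comp (M x) u, v⟫ = ⟪u, (dcoord M δ x).comp (M x) v⟫ := by
  simp only [dcoord, ContinuousLinearMap.comp_apply, ContinuousLinearMap.add_apply,
    ContinuousLinearMap.smul_apply, ContinuousLinearMap.id_apply]
  rw [inner_add_left, inner_add_right, hP.dsymm x hx, real_inner_smul_left, real_inner_smul_right,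
    hP.symm x hx]

lemma comp_pos (hδ : 0 < δ) (hx : x ∈ U) (v : E n) (hv : v ≠ 0) :
    0 < ⟪v, (dcoord M δ x).comp (M x) v⟫ := by
  simp only [dcoord, ContinuousLinearMap.comp_apply, ContinuousLinearMap.add_apply,
    ContinuousLinearMap.smul_apply, ContinuousLinearMap.id_apply]
  rw [inner_add_right, real_inner_smul_right]
  exact add_pos_of_nonneg_of_pos (hP.dpos x hx v) (mul_pos hδ (hP.pos x hx v hv))

lemma det_comp : ((dcoord M δ x).comp (M x)).det = (dcoord M δ x).det * (M x).det :=
  LinearMap.det_comp _ _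

lemma det_dcoord_pos (hδ : 0 < δ) (hx : x ∈ U) : 0 < (dcoord M δ x).det := by
  have h := Transport.det_pos (hP.comp_symm (δ := δ) hx) (hP.comp_pos hδ hx)
  rw [hP.det_comp] at h
  exact pos_of_mul_pos_left h (hP.toFrame.det_pos hx).le

lemma map_nhds_coord (hδ : 0 < δ) (hx : x ∈ U) :
    map (coord M δ) (𝓝 x) = 𝓝 (coord M δ x) := by
  have h := ((hP.contDiffOn_coord (δ := δ)).contDiffAt (hP.isOpen.mem_nhds hx)).hasStrictFDerivAt'
    (hP.hasFDerivAt_coord hx) one_ne_zero
  exact HasStrictFDerivAt.map_nhds_eq_of_equiv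
    (f' := (dcoord M δ x).toContinuousLinearEquivOfDetNeZero (hP.det_dcoord_pos hδ hx).ne')
    (by simpa using h)

lemma isOpen_image (hδ : 0 < δ) : IsOpen (coord M δ '' U) := by
  rw [isOpen_iff_mem_nhds]
  rintro _ ⟨x, hx, rfl⟩
  rw [← hP.map_nhds_coord hδ hx]
  exact image_mem_map (hP.isOpen.mem_nhds hx)

lemma continuousOn_inv (hδ : 0 < δ) :
    ContinuousOn (Function.invFunOn (coord M δ) U) (coord M δ '' U) := by
  rintro _ ⟨x, hx, rfl⟩
  refine ContinuousAt.continuousWithinAt ?_
  rw [ContinuousAt, (hP.injOn_coord hδ).leftInvOn_invFunOn hx,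
    ← hP.map_nhds_coord hδ hx, tendsto_map'_iff]
  refine tendsto_id.congr' ?_
  filter_upwards [hP.isOpen.mem_nhds hx] with y hy
  exact ((hP.injOn_coord hδ).leftInvOn_invFunOn hy).symm

lemma lintegral_image (hδ : 0 < δ) (φ : E n → ℝ≥0∞) :
    ∫⁻ z in coord M δ '' U, φ z
      = ∫⁻ x in U, ENNReal.ofReal (dcoord M δ x).det * φ (coord M δ x) := by
  rw [lintegral_image_eq_lintegral_abs_det_fderiv_mul volume hP.isOpen.measurableSet
    (fun x hx => (hP.hasFDerivAt_coord hx).hasFDerivWithinAt) (hP.injOn_coord hδ)]
  exact setLIntegral_congr_fun hP.isOpen.measurableSet fun x hx => by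
    rw [abs_of_pos (hP.det_dcoord_pos hδ hx)]

lemma exists_extension {C : Set (E n)} (hC : IsCompact C) (hCU : C ⊆ U) :
    ∃ (K : ℝ≥0) (Y : E n → E n), LipschitzWith K Y ∧ ∀ x ∈ C, Y =ᶠ[𝓝 x] coord M δ := by
  classical
  have hu : ∀ x ∈ C, ∃ u : Finset (E n), x ∈ interior (convexHull ℝ (u : Set (E n)))
      ∧ convexHull ℝ (u : Set (E n)) ⊆ U := fun x hx => by
    obtain ⟨u, h1, h2⟩ := (convex_singleton x).exists_subset_interior_convexHull_finset_of_isCompact
      isCompact_singleton (t := U) (by simpa using hP.isOpen.mem_nhds (hCU hx))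
    exact ⟨u, h1 rfl, h2⟩
  choose u hu1 hu2 using hu
  obtain ⟨s, hs⟩ := hC.elim_finite_subcover
    (fun x : C => interior (convexHull ℝ (u x x.2 : Set (E n)))) (fun _ => isOpen_interior)
    fun x hx => mem_iUnion.2 ⟨⟨x, hx⟩, hu1 x hx⟩
  set S : Set (E n) := convexHull ℝ ((s.biUnion fun x : C => u x x.2 : Finset (E n)) : Set (E n))
  have hSU : S ⊆ U := convexHull_min (fun y hy => by
    obtain ⟨x, -, hy⟩ := Finset.mem_biUnion.1 (Finset.mem_coe.1 hy)
    exact hu2 x x.2 (subset_convexHull ℝ _ hy)) hP.convex
  have hCS : C ⊆ interior S := fun y hy => by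
    obtain ⟨x, hx, hy⟩ := mem_iUnion₂.1 (hs hy)
    exact interior_mono (convexHull_mono
      (Finset.coe_subset.2 (Finset.subset_biUnion_of_mem (fun x : C => u x x.2) hx))) hy
  obtain ⟨K, hK⟩ := ((hP.contDiffOn_coord (δ := δ)).mono hSU).exists_lipschitzOnWith one_ne_zero
    (convex_convexHull ℝ _) ((Finset.finite_toSet _).isCompact_convexHull ℝ)
  obtain ⟨Y, hY, hEq⟩ := hK.extend_finite_dimension
  refine ⟨_, Y, hY, fun x hx => ?_⟩
  exact mem_of_superset (mem_interior_iff_mem_nhds.1 (hCS hx)) fun y hy => (hEq hy).symm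

end Potential

lemma integral_id_unifBall : ∫ y : E n, y ∂unifBall n = 0 := by
  have h : ∫ y : E n, (B n).indicator (fun y => y) y = 0 := by
    set F := (B n).indicator fun y : E n => y
    have h1 : ∫ y, F (-y) = ∫ y, F y := integral_neg_eq_self F volume
    have h2 : (fun y => F (-y)) = fun y => -F y := by
      funext y
      simp only [F, indicator, mem_closedBall_zero_iff, norm_neg]
      split_ifs <;> simp
    rw [h2, integral_neg, neg_eq_iff_add_eq_zero, ← two_smul ℝ, smul_eq_zero] at h1
    exact h1.resolve_left two_ne_zero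
  rw [unifBall, integral_smul_measure, ← integral_indicator isCompact_B.measurableSet, h,
    smul_zero]

lemma setLIntegral_eq_of_support_subset_aux {U C : Set (E n)} (hU : MeasurableSet U)
    (hC : MeasurableSet C) (hCU : C ⊆ U) {φ : E n → ℝ≥0∞} (h : ∀ x ∈ U, x ∉ C → φ x = 0) :
    ∫⁻ x in U, φ x = ∫⁻ x in C, φ x := by
  rw [← lintegral_indicator hU, ← lintegral_indicator hC]
  refine lintegral_congr fun x => ?_
  by_cases hx : x ∈ C
  · rw [indicator_of_mem hx, indicator_of_mem (hCU hx)]
  · rw [indicator_of_notMem hx]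
    exact indicator_apply_eq_zero.2 fun hxU => h x hxU hx

/-- A gradient map is positively correlated with the identity. -/
lemma inner_grad_nonneg {ψ : E n → ℝ} {μ : Measure (E n)} [IsProbabilityMeasure μ] {R : ℝ}
    (hψ : Continuous ψ) (hμac : μ ≪ volume) (hμK : ∀ᵐ z ∂μ, z ∈ closedBall (0 : E n) R)
    (hmap : μ.map (grad ψ) = unifBall n) : 0 ≤ ∫ z, ⟪grad ψ z, z⟫ ∂μ := by
  have hXd : ∀ᵐ z ∂μ, DifferentiableAt ℝ (conj ψ) z :=
    hμac.ae_le (ae_differentiable hψ)
  have hgi : Integrable (grad ψ) μ := Integrable.of_bound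
    (measurable_grad ψ).aestronglyMeasurable 1 (ae_of_all _ fun z => by simpa using grad_mem hψ z)
  have hzi : Integrable (fun z : E n => z) μ :=
    integrable_of_ae_mem (isCompact_closedBall _ _) hμK continuous_id
  set b := ∫ z, z ∂μ
  obtain ⟨y₀, hy₀, ey₀⟩ := exists_conj hψ b
  have hgz : ∫ z, grad ψ z ∂μ = 0 := by
    have h := integral_map (μ := μ) (measurable_grad ψ).aemeasurable
      (f := fun y : E n => y) continuous_id.aestronglyMeasurable
    rw [hmap, integral_id_unifBall] at h
    exact h.symm
  have hiz : Integrable (fun z => ⟪grad ψ z, z⟫) μ := by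
    refine Integrable.mono' hzi.norm
      ((measurable_grad ψ).inner measurable_id).aestronglyMeasurable (ae_of_all _ fun z => ?_)
    exact (norm_inner_le_norm _ _).trans
      (mul_le_of_le_one_left (norm_nonneg _) (by simpa using grad_mem hψ z))
  have hib : Integrable (fun z => ⟪b, grad ψ z⟫) μ := hgi.const_inner b
  have hiy : Integrable (fun z => ⟪y₀, z - b⟫) μ :=
    (hzi.sub (integrable_const b)).const_inner y₀
  calc (0 : ℝ) = (∫ z, ⟪b, grad ψ z⟫ ∂μ) + ∫ z, ⟪y₀, z - b⟫ ∂μ := by
        rw [integral_inner hgi b, hgz, inner_zero_right,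
          integral_inner (f := fun z => z - b) (hzi.sub (integrable_const b)) y₀,
          integral_sub hzi (integrable_const b), integral_const]
        simp [b]
    _ ≤ ∫ z, ⟪grad ψ z, z⟫ ∂μ := by
        rw [← integral_add hib hiy]
        refine integral_mono_ae (hib.add hiy) hiz (hXd.mono fun z hz => ?_)
        have h := mono_max hψ (grad_mem hψ z) hy₀ (exists_unique_max hψ hz) ey₀
        simp only [inner_sub_left, inner_sub_right] at h ⊢
        linarith [real_inner_comm b y₀, real_inner_comm z y₀, real_inner_comm z (grad ψ z),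
          real_inner_comm b (grad ψ z)]

/-- The inequality for one open set. -/
theorem level (hn : 0 < n) (hP : Potential U M) {δ : ℝ} (hδ : 0 < δ) {A : Set (E n)}
    (hA : IsOpen A) (hne : A.Nonempty) (hC : IsCompact (closure A)) (hCU : closure A ⊆ U) :
    ∃ τ : E n → E n, Measurable τ ∧ (∀ x, ‖τ x‖ ≤ 1) ∧
      (∀ f : E n → ℝ, ContDiff ℝ 1 f → (∀ x, 0 ≤ f x) → (∀ x, x ∉ A → f x = 0) →
        isoConst n * (∫ x in A, dens M x) ^ (-(n : ℝ)⁻¹) * (∫ x in A, f x * dens M x)
            + ∫ x in A, f x * dens M x * ⟪τ x, frameD M x⟫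
          ≤ ∫ x in A, dens M x * ‖(fderiv ℝ f x).comp (M x)‖) ∧
      -(δ * ∫ x in A, dens M x * ‖x‖) ≤ ∫ x in A, dens M x * ⟪τ x, frameD M x⟫ := by
  set C := closure A
  set X := coord M δ
  set dX := dcoord M δ
  have hAC : A ⊆ C := subset_closure
  have hCm : MeasurableSet C := hC.isClosed.measurableSet
  have hAU : A ⊆ U := hAC.trans hCU
  have hq : ∀ x ∈ U, 0 < dens M x := fun x hx => hP.dens_pos hx
  have hqc : ContinuousOn (dens M) U := hP.contDiffOn_dens.continuousOn
  have hDc : ContinuousOn (frameD M) U := hP.contDiffOn_frameD.continuousOn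
  have hintC : ∀ g : E n → ℝ, ContinuousOn g U → IntegrableOn g C := fun g hg =>
    (hg.mono hCU).integrableOn_compact hC
  set V := ∫ x in A, dens M x
  have hV : 0 < V := by
    have hpos : 0 ≤ᵐ[volume.restrict A] dens M :=
      (ae_restrict_mem hA.measurableSet).mono fun x hx => (hq x (hAU hx)).le
    rw [setIntegral_pos_iff_support_of_nonneg_ae hpos ((hintC _ hqc).mono_set hAC)]
    refine lt_of_lt_of_le (hA.measure_pos volume hne) (measure_mono fun x hx => ?_)
    exact ⟨(hq x (hAU hx)).ne', hx⟩
  -- a global Lipschitz extension of the coordinates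
  obtain ⟨K, Y, hY, hYX⟩ := hP.exists_extension (δ := δ) hC hCU
  have hYeq : ∀ x ∈ C, Y x = X x := fun x hx => (hYX x hx).self_of_nhds
  have hnull : ∀ N : Set (E n), volume N = 0 → ∀ᵐ x ∂volume.restrict C, Y x ∉ N := by
    intro N hN
    set N' := toMeasurable volume N
    set s := C ∩ Y ⁻¹' N'
    have hs : MeasurableSet s :=
      hCm.inter (hY.continuous.measurable (measurableSet_toMeasurable _ _))
    have h0 : ∫⁻ x in s, ENNReal.ofReal |(dX x).det| = 0 := by
      have h := lintegral_image_eq_lintegral_abs_det_fderiv_mul volume hs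
        (fun x hx => (hP.hasFDerivAt_coord (δ := δ) (hCU hx.1)).hasFDerivWithinAt)
        ((hP.injOn_coord hδ).mono (inter_subset_left.trans hCU)) (fun _ => 1)
      simp only [mul_one, setLIntegral_one] at h
      rw [← h]
      refine measure_mono_null ?_ ((measure_toMeasurable N).trans hN)
      rintro _ ⟨x, hx, rfl⟩
      have h2 := hx.2
      rw [mem_preimage, hYeq x hx.1] at h2
      exact h2
    have h1 := (setLIntegral_eq_zero_iff' hs
      ((ContinuousLinearMap.continuous_det.comp_continuousOn
        ((hP.continuousOn_dcoord (δ := δ)).mono hCU)).norm.mono inter_subset_left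
        |>.aemeasurable hs).ennreal_ofReal).1 h0
    refine (ae_restrict_iff' hCm).2 (h1.mono fun x hx hxC hxN => ?_)
    have h3 := hx ⟨hxC, subset_toMeasurable _ _ hxN⟩
    rw [ENNReal.ofReal_eq_zero] at h3
    exact (hP.det_dcoord_pos hδ (hCU hxC)).ne' (norm_le_zero_iff.1 h3)
  -- the source measure
  have hVi : IntegrableOn (dens M) A := (hintC _ hqc).mono_set hAC
  set mA : Measure (E n) :=
    (volume.restrict A).withDensity fun x => ENNReal.ofReal (dens M x / V)
  have hqm : AEMeasurable (fun x => ENNReal.ofReal (dens M x / V)) (volume.restrict A) :=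
    (((hqc.mono hAU).div_const V).aemeasurable hA.measurableSet).ennreal_ofReal
  have hmA : IsProbabilityMeasure mA := ⟨by
    rw [withDensity_apply _ MeasurableSet.univ, Measure.restrict_univ,
      ← ofReal_integral_eq_lintegral_ofReal (hVi.div_const V)
        ((ae_restrict_mem hA.measurableSet).mono fun x hx =>
          div_nonneg (hq x (hAU hx)).le hV.le), integral_div, div_self hV.ne',
      ENNReal.ofReal_one]⟩
  set μ : Measure (E n) := mA.map Y
  have hμ : IsProbabilityMeasure μ :=
    Measure.isProbabilityMeasure_map hY.continuous.measurable.aemeasurable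
  -- its density
  set ι : U → E n := U.domRestrict X
  have hι : MeasurableEmbedding ι :=
    ((hP.contDiffOn_coord (δ := δ)).continuousOn).measurableEmbedding hP.isOpen.measurableSet
      (hP.injOn_coord hδ)
  set r : E n → ℝ≥0∞ := fun x =>
    A.indicator (fun x => ENNReal.ofReal (dens M x / (V * (dX x).det))) x
  have hr : Measurable fun x : U => r x := by
    have h : ContinuousOn (fun x => dens M x / (V * (dX x).det)) U :=
      hqc.div (continuousOn_const.mul (ContinuousLinearMap.continuous_det.comp_continuousOn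
        (hP.continuousOn_dcoord (δ := δ)))) fun x hx =>
          (mul_pos hV (hP.det_dcoord_pos hδ hx)).ne'
    exact ((h.domRestrict.measurable).ennreal_ofReal).indicator
      (hA.measurableSet.preimage measurable_subtype_coe)
  set ρ : E n → ℝ≥0∞ := Function.extend ι (fun x : U => r x) 0
  have hρ : Measurable ρ := hι.measurable_extend hr measurable_const
  have hρX : ∀ x ∈ U, ρ (X x) = r x := fun x hx =>
    hι.injective.extend_apply (fun x : U => r x) 0 ⟨x, hx⟩
  have hρ0 : ∀ z, z ∉ X '' U → ρ z = 0 := fun z hz =>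
    Function.extend_apply' _ _ _ fun ⟨x, e⟩ => hz ⟨x, x.2, e⟩
  have hXU : MeasurableSet (X '' U) := (hP.isOpen_image hδ).measurableSet
  have hchg : ∀ φ : E n → ℝ≥0∞, (∀ z, z ∉ X '' U → φ z = 0) →
      ∫⁻ z, φ z = ∫⁻ x in U, ENNReal.ofReal (dX x).det * φ (X x) := by
    intro φ hφ
    rw [← hP.lintegral_image hδ φ, ← lintegral_indicator hXU]
    refine lintegral_congr fun z => ?_
    by_cases hz : z ∈ X '' U
    · rw [indicator_of_mem hz]
    · rw [indicator_of_notMem hz, hφ z hz]
  have hμρ : volume.withDensity ρ = μ := by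
    refine Measure.ext fun s hs => ?_
    rw [withDensity_apply _ hs, Measure.map_apply hY.continuous.measurable hs,
      withDensity_apply _ (hY.continuous.measurable hs), ← lintegral_indicator hs,
      hchg _ fun z hz => indicator_apply_eq_zero.2 fun _ => hρ0 z hz,
      ← lintegral_indicator (hY.continuous.measurable hs),
      ← lintegral_indicator hP.isOpen.measurableSet, ← lintegral_indicator hA.measurableSet]
    refine lintegral_congr fun x => ?_
    by_cases hxA : x ∈ A
    · have hxU := hAU hxA
      rw [indicator_of_mem hxU, indicator_of_mem hxA]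
      by_cases hxs : X x ∈ s
      · rw [indicator_of_mem hxs,
          indicator_of_mem (show x ∈ Y ⁻¹' s by rwa [mem_preimage, hYeq x (hAC hxA)]),
          hρX x hxU]
        have hd := hP.det_dcoord_pos hδ hxU
        simp only [r]
        rw [indicator_of_mem hxA, ← ENNReal.ofReal_mul hd.le]
        congr 1
        simp only [dX]
        field_simp
      · rw [indicator_of_notMem hxs, mul_zero,
          indicator_of_notMem (show x ∉ Y ⁻¹' s by rwa [mem_preimage, hYeq x (hAC hxA)])]
    · rw [indicator_of_notMem hxA]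
      by_cases hxU : x ∈ U
      · rw [indicator_of_mem hxU]
        by_cases hxs : X x ∈ s
        · rw [indicator_of_mem hxs, hρX x hxU]
          simp only [r]
          rw [indicator_of_notMem hxA, mul_zero]
        · rw [indicator_of_notMem hxs, mul_zero]
      · rw [indicator_of_notMem hxU]
  have hμac : μ ≪ volume := hμρ ▸ withDensity_absolutelyContinuous _ _
  obtain ⟨R, hR⟩ := (hC.image hY.continuous).isBounded.subset_closedBall (0 : E n)
  have hμK : ∀ᵐ z ∂μ, z ∈ closedBall (0 : E n) R.toNNReal := by
    refine (ae_map_iff hY.continuous.measurable.aemeasurable measurableSet_closedBall).2 ?_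
    refine (withDensity_absolutelyContinuous _ _).ae_le ?_
    filter_upwards [ae_restrict_mem hA.measurableSet] with x hx
    exact closedBall_subset_closedBall (Real.le_coe_toNNReal R)
      (hR (mem_image_of_mem Y (hAC hx)))
  obtain ⟨ψ, hψc, hψ, hmap⟩ := exists_potential hμac hμK
  have hτm : Measurable fun x => grad ψ (Y x) :=
    (measurable_grad ψ).comp hY.continuous.measurable
  have hτ1 : ∀ x, ‖grad ψ (Y x)‖ ≤ 1 := fun x => by simpa using grad_mem hψ (Y x)
  refine ⟨fun x => grad ψ (Y x), hτm, hτ1, fun f hf hf0 hfA => ?_, ?_⟩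
  · -- the divergence theorem
    have hfz : ∀ x, x ∉ A → fderiv ℝ f x = 0 := fun x hx =>
      IsLocalMin.fderiv_eq_zero (Eventually.of_forall fun y => (hfA x hx).symm ▸ hf0 y)
    set W : Fin n → E n → E n := fun i x => f x • (dens M x • M x (e i))
    have hW0 : ∀ i x, x ∉ C → W i x = 0 := fun i x hx => by
      simp [W, hfA x fun h => hx (hAC h)]
    have hWs : ∀ i, ContDiff ℝ 1 (W i) := by
      intro i
      refine contDiff_iff_contDiffAt.2 fun x => ?_
      by_cases hx : x ∈ U
      · exact hf.contDiffAt.smul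
          (((hP.contDiffOn_field i).of_le one_le_two).contDiffAt (hP.isOpen.mem_nhds hx))
      · refine (contDiffAt_const (c := (0 : E n))).congr_of_eventuallyEq ?_
        filter_upwards [hC.isClosed.isOpen_compl.mem_nhds fun h => hx (hCU h)] with y hy
        exact hW0 i y hy
    have hWc : ∀ i, HasCompactSupport (W i) := fun i => HasCompactSupport.intro hC (hW0 i)
    set dWt : E n → ℝ := fun x => dens M x * ‖(fderiv ℝ f x).comp (M x)‖
    have hfc := hf.continuous
    have hDf := hf.continuous_fderiv one_ne_zero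
    have hMc : ContinuousOn M U := hP.smooth.continuousOn
    have hdWt : ContinuousOn dWt U :=
      hqc.mul (hDf.continuousOn.clm_comp hMc).norm
    have hAeq : ∀ g : E n → ℝ, (∀ x ∈ C \ A, g x = 0) → ∫ x in A, g x = ∫ x in C, g x :=
      fun g hg => (setIntegral_eq_of_subset_of_forall_sdiff_eq_zero hCm hAC hg).symm
    rw [hAeq (fun x => f x * dens M x * ⟪grad ψ (Y x), frameD M x⟫)
      (fun x hx => by simp [hfA x hx.2]), hAeq (fun x => f x * dens M x)
      (fun x hx => by simp [hfA x hx.2]), hAeq dWt (fun x hx => by simp [dWt, hfz x hx.2])]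
    -- a bounded measurable field against a continuous one
    have hinner : ∀ σ : E n → E n, Measurable σ → (∀ x, ‖σ x‖ ≤ 1) →
        ∀ g : E n → E n, ContinuousOn g U → IntegrableOn (fun x => ⟪σ x, g x⟫) C := by
      intro σ hσ hσ1 g hg
      refine Integrable.mono' (hintC _ hg.norm)
        ((hσ.aemeasurable.inner ((hg.mono hCU).aemeasurable hCm))).aestronglyMeasurable
        (ae_of_all _ fun x => ?_)
      exact (norm_inner_le_norm _ _).trans (mul_le_of_le_one_left (norm_nonneg _) (hσ1 x))
    set g2 : E n → E n := fun x => (f x * dens M x) • frameD M x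
    have hg2 : ContinuousOn g2 U := (hfc.continuousOn.mul hqc).smul hDc
    have e2 : ∀ (σ : E n → E n) x, f x * dens M x * ⟪σ x, frameD M x⟫ = ⟪σ x, g2 x⟫ := by
      intro σ x; rw [real_inner_smul_right]
    simp only [e2 (fun x => grad ψ (Y x))]
    set Q := ∫ x in C, f x * dens M x
    set R₀ := (∫ x in C, dWt x) - ∫ x in C, ⟪grad ψ (Y x), g2 x⟫
    set l : ℕ → ℝ := fun k => 1 / ((k : ℝ) + 1)
    have hl : ∀ k, 0 < l k := fun k => by simp only [l]; positivity
    set τ : ℕ → E n → E n := fun k x => yreg ψ (l k) (Y x)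
    have hτk : ∀ k x, ‖τ k x‖ ≤ 1 := fun k x => by simpa using (yreg_spec hψ (Y x)).1
    have hτL : ∀ k, LipschitzWith ((l k)⁻¹.toNNReal * K) (τ k) := fun k =>
      (lipschitz_yreg hψc hψ (hl k)).comp hY
    set P : E n → E n →L[ℝ] E n := fun x => (dX x).comp (M x)
    set g0 : E n → ℝ := fun x => f x * dens M x * (P x).det ^ (n : ℝ)⁻¹ / (dX x).det
    set inv := Function.invFunOn X U
    set G : E n → ℝ := (X '' U).indicator fun z => g0 (inv z)
    have hdetP : ContinuousOn (fun x => (P x).det) U :=
      ContinuousLinearMap.continuous_det.comp_continuousOn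
        ((hP.continuousOn_dcoord (δ := δ)).clm_comp hMc)
    have hg0c : ContinuousOn g0 U :=
      ((hfc.continuousOn.mul hqc).mul (hdetP.rpow_const fun _ _ => Or.inr (by positivity))).div
        (ContinuousLinearMap.continuous_det.comp_continuousOn
          (hP.continuousOn_dcoord (δ := δ))) fun x hx => (hP.det_dcoord_pos hδ hx).ne'
    have hGc : Continuous G := by
      refine glue_continuous (hP.isOpen_image hδ)
        (hC.image_of_continuousOn ((hP.contDiffOn_coord (δ := δ)).continuousOn.mono hCU)).isClosed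
        (image_mono hCU) ?_ fun z hz => indicator_apply_eq_zero.2 fun hzU => ?_
      · refine ContinuousOn.congr (hg0c.comp (hP.continuousOn_inv hδ)
          fun z hz => Function.invFunOn_mem hz) fun z hz => ?_
        exact indicator_of_mem hz _
      · have hi : inv z ∉ A := fun h => hz ⟨inv z, hAC h, Function.invFunOn_eq hzU⟩
        simp [g0, hfA _ hi]
    have hG0 : ∀ z, z ∉ X '' U → G z = 0 := fun z hz => indicator_of_notMem hz _
    have hGX : ∀ x ∈ U, G (X x) = g0 x := fun x hx => by
      simp only [G]
      rw [indicator_of_mem (mem_image_of_mem X hx)]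
      simp only [inv]
      rw [(hP.injOn_coord hδ).leftInvOn_invFunOn hx]
    set c0 := volume.real (B n) / V
    -- the inequality for the regularised field
    have hk : ∀ k, 0 ≤ (∫ x in C, dWt x) - (∫ x in C, ⟪τ k x, g2 x⟫) ∧
        ENNReal.ofReal n * ∫⁻ z, ENNReal.ofReal (G (z + l k • grad ψ z))
          * (volume (B n) * ρ z) ^ (n : ℝ)⁻¹
        ≤ ENNReal.ofReal ((∫ x in C, dWt x) - ∫ x in C, ⟪τ k x, g2 x⟫) := by
      intro k
      set H : E n → E n →L[ℝ] E n := fun z => fderiv ℝ (yreg ψ (l k)) z
      set T : E n → ℝ := fun x => tr (fderiv ℝ (fun y => ∑ i, (τ k y) i • W i y) x)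
      set T1 : E n → ℝ := fun x => ⟪τ k x, ∑ i, fderiv ℝ f x (dens M x • M x (e i)) • e i⟫
      set T2 : E n → ℝ := fun x => ⟪τ k x, g2 x⟫
      set T3 : E n → ℝ := fun x => f x * dens M x * tr ((H (Y x)).comp (P x))
      have hWL : ∀ i, ∃ K', LipschitzWith K' fun y => (τ k y) i • W i y := fun i =>
        lipschitz_smul_field (K := ‖(EuclideanSpace.proj i : E n →L[ℝ] ℝ)‖₊
            * ((l k)⁻¹.toNNReal * K))
          ((EuclideanSpace.proj i : E n →L[ℝ] ℝ).lipschitz.comp (hτL k))
          (fun x => ((Real.norm_eq_abs _).symm.le.trans (PiLp.norm_apply_le _ i)).trans (hτk k x))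
          (hWs i) (hWc i)
      choose K' hK' using hWL
      have hsumL : LipschitzWith (∑ i, K' i) fun y => ∑ i, (τ k y) i • W i y := by
        refine LipschitzWith.of_dist_le_mul fun x y => ?_
        rw [NNReal.coe_sum, Finset.sum_mul]
        exact (dist_sum_sum_le _ _ _).trans (Finset.sum_le_sum fun i _ => (hK' i).dist_le_mul x y)
      have hout : ∀ x, x ∉ C → (fun y => ∑ i, (τ k y) i • W i y) =ᶠ[𝓝 x] fun _ => 0 := by
        intro x hx
        filter_upwards [hC.isClosed.isOpen_compl.mem_nhds hx] with y hy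
        simp [hW0 _ y hy]
      obtain ⟨hTi, hT0⟩ := integral_tr_fderiv_eq_zero hsumL
        (HasCompactSupport.intro hC fun x hx => (hout x hx).self_of_nhds)
      have hTC : ∫ x in C, T x = 0 := by
        rw [setIntegral_eq_integral_of_forall_compl_eq_zero fun x hx => ?_]
        · exact hT0
        · simp only [T]
          rw [(hout x hx).fderiv_eq, fderiv_const_apply]
          simp [tr]
      have hdiff : ∀ᵐ x ∂volume.restrict C, DifferentiableAt ℝ (yreg ψ (l k)) (Y x) :=
        (hnull _ (lipschitz_yreg hψc hψ (hl k)).ae_differentiableAt).mono fun x hx => not_not.1 hx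
      have hform : ∀ᵐ x ∂volume.restrict C, T x = T1 x + T2 x + T3 x := by
        filter_upwards [hdiff, ae_restrict_mem hCm] with x hd hxC
        have hxU := hCU hxC
        have hYd : HasFDerivAt Y (dX x) x :=
          (hP.hasFDerivAt_coord hxU).congr_of_eventuallyEq (hYX x hxC)
        have hτd : ∀ i, HasFDerivAt (fun y => (τ k y) i)
            ((EuclideanSpace.proj i : E n →L[ℝ] ℝ).comp ((H (Y x)).comp (dX x))) x := fun i =>
          (EuclideanSpace.proj i : E n →L[ℝ] ℝ).hasFDerivAt.comp x (hd.hasFDerivAt.comp x hYd)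
        have hWd : ∀ i, HasFDerivAt (W i) (f x • fderiv ℝ (fun y => dens M y • M y (e i)) x
            + (fderiv ℝ f x).smulRight (dens M x • M x (e i))) x := fun i =>
          (hf.differentiable one_ne_zero x).hasFDerivAt.smul
            (((hP.contDiffOn_field i).differentiableOn two_ne_zero).differentiableAt
              (hP.isOpen.mem_nhds hxU)).hasFDerivAt
        have hh := HasFDerivAt.fun_sum (u := Finset.univ) fun i _ => (hτd i).fun_smul (hWd i)
        simp only [T]
        rw [hh.fderiv, tr_finsum]
        simp only [tr_add, tr_smul, tr_smulRight, hP.tr_field hxU,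
          ContinuousLinearMap.comp_apply]
        have e3 : T3 x = ∑ i, f x * dens M x
            * (H (Y x) (dX x (M x (e i)))) i := by
          simp only [T3, P]
          rw [tr_eq_sum, Finset.mul_sum]
          rfl
        have e1 : T1 x = ∑ i, (τ k x) i * fderiv ℝ f x (dens M x • M x (e i)) := by
          simp only [T1, PiLp.inner_apply, sum_e_coord]
          exact Finset.sum_congr rfl fun i _ => by simp [mul_comm]
        have e2' : T2 x = ∑ i, (τ k x) i * (f x * (dens M x * (frameD M x) i)) := by
          simp only [T2, g2, PiLp.inner_apply]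
          exact Finset.sum_congr rfl fun i _ => by simp; ring
        rw [e1, e2', e3, ← Finset.sum_add_distrib, ← Finset.sum_add_distrib]
        refine Finset.sum_congr rfl fun i _ => ?_
        simp [W]
        ring
      have hτmk : Measurable (τ k) := (hτL k).continuous.measurable
      have hT1 : IntegrableOn T1 C := hinner _ hτmk (hτk k) _ (continuousOn_finsetSum _
        fun i _ => (hDf.continuousOn.clm_apply (hP.contDiffOn_field i).continuousOn).smul
          continuousOn_const)
      have hT2 : IntegrableOn T2 C := hinner _ hτmk (hτk k) g2 hg2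
      have hT3 : IntegrableOn T3 C :=
        ((hTi.integrableOn.sub hT1).sub hT2).congr (hform.mono fun x hx => by
          simp only [Pi.sub_apply]; linarith)
      have hsum : (∫ x in C, T1 x) + (∫ x in C, T2 x) + ∫ x in C, T3 x = 0 := by
        have h12 := integral_add (hT1.add hT2) hT3
        simp only [Pi.add_apply] at h12
        rw [← integral_add hT1 hT2, ← h12, ← hTC]
        exact integral_congr_ae (hform.mono fun x hx => hx.symm)
      have hT1le : -(∫ x in C, T1 x) ≤ ∫ x in C, dWt x := by
        rw [← integral_neg]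
        refine setIntegral_mono_on hT1.neg (hintC _ hdWt) hCm fun x hx => ?_
        have eT : T1 x = dens M x * (fderiv ℝ f x).comp (M x) (τ k x) := by
          rw [clm_sum ((fderiv ℝ f x).comp (M x))]
          simp only [T1, PiLp.inner_apply, sum_e_coord, Finset.mul_sum]
          exact Finset.sum_congr rfl fun i _ => by simp; ring
        rw [eT, ← mul_neg]
        refine mul_le_mul_of_nonneg_left ((neg_le_abs _).trans ?_) (hq x (hCU hx)).le
        exact (((fderiv ℝ f x).comp (M x)).le_opNorm _).trans
          (mul_le_of_le_one_right (norm_nonneg _) (hτk k x))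
      have hpos : ∀ᵐ x ∂volume.restrict C, 0 ≤ (H (Y x)).det ∧
          (n : ℝ) * ((H (Y x)).det * (P x).det) ^ (n : ℝ)⁻¹ ≤ tr ((H (Y x)).comp (P x)) := by
        filter_upwards [hdiff, ae_restrict_mem hCm] with x hd hxC
        exact ⟨det_nonneg (fderiv_symm hψc hψ (hl k) hd) (fderiv_nonneg hψc hψ (hl k).le hd),
          tr_am_gm hn (fderiv_symm hψc hψ (hl k) hd) (fderiv_nonneg hψc hψ (hl k).le hd)
            (hP.comp_symm (hCU hxC)) (hP.comp_pos hδ (hCU hxC))⟩
      have hPpos : ∀ x ∈ C, 0 < (P x).det := fun x hx =>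
        Transport.det_pos (hP.comp_symm (hCU hx)) (hP.comp_pos hδ (hCU hx))
      have hT3pos : 0 ≤ᵐ[volume.restrict C] T3 := by
        filter_upwards [hpos, ae_restrict_mem hCm] with x hx hxC
        refine mul_nonneg (mul_nonneg (hf0 x) (hq x (hCU hxC)).le) (le_trans ?_ hx.2)
        have := hPpos x hxC
        have := hx.1
        positivity
      refine ⟨by linarith [integral_nonneg_of_ae hT3pos], ?_⟩
      refine (mul_le_mul' le_rfl (reg_ineq hn hψc hψ (hl k) hρ (hμρ ▸ hmap)
        fun z => ENNReal.ofReal (G z))).trans ?_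
      rw [hchg _ fun z hz => by rw [hG0 z hz, ENNReal.ofReal_zero, zero_mul]]
      calc ENNReal.ofReal n * ∫⁻ x in U, ENNReal.ofReal (dX x).det
            * (ENNReal.ofReal (G (X x)) * ENNReal.ofReal (H (X x)).det ^ (n : ℝ)⁻¹)
          = ∫⁻ x in C, ENNReal.ofReal n * (ENNReal.ofReal (dX x).det
            * (ENNReal.ofReal (G (X x)) * ENNReal.ofReal (H (X x)).det ^ (n : ℝ)⁻¹)) := by
            rw [← lintegral_const_mul' _ _ ENNReal.ofReal_ne_top]
            refine setLIntegral_eq_of_support_subset_aux hP.isOpen.measurableSet hCm hCU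
              fun x hxU hx => ?_
            rw [hGX x hxU]
            simp [g0, hfA x fun h => hx (hAC h)]
        _ ≤ ∫⁻ x in C, ENNReal.ofReal (T3 x) := by
            refine lintegral_mono_ae ?_
            filter_upwards [hpos, ae_restrict_mem hCm] with x hx hxC
            have hxU := hCU hxC
            have hd := hP.det_dcoord_pos hδ hxU
            have hqx := hq x hxU
            have hfx := hf0 x
            have hPx := hPpos x hxC
            rw [hGX x hxU, ← hYeq x hxC, ENNReal.ofReal_rpow_of_nonneg hx.1 (by positivity),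
              ← ENNReal.ofReal_mul (div_nonneg (by positivity) hd.le),
              ← ENNReal.ofReal_mul hd.le, ← ENNReal.ofReal_mul (by positivity)]
            refine ENNReal.ofReal_le_ofReal (le_of_eq_of_le ?_
              (mul_le_mul_of_nonneg_left hx.2 (mul_nonneg hfx hqx.le)))
            rw [Real.mul_rpow hx.1 hPx.le]
            have hd0 : (dX x).det ≠ 0 := hd.ne'
            field_simp
        _ = ENNReal.ofReal (∫ x in C, T3 x) :=
            (ofReal_integral_eq_lintegral_ofReal hT3 hT3pos).symm
        _ ≤ _ := ENNReal.ofReal_le_ofReal (by linarith)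
    -- let the regularisation tend to zero
    have hlim : Tendsto (fun k => (∫ x in C, dWt x) - ∫ x in C, ⟪τ k x, g2 x⟫) atTop (𝓝 R₀) := by
      refine tendsto_const_nhds.sub (tendsto_integral_of_dominated_convergence (fun x => ‖g2 x‖)
        (fun k => (hinner _ (hτL k).continuous.measurable (hτk k) g2 hg2).1)
        (hintC _ hg2.norm) (fun k => ae_of_all _ fun x =>
          (norm_inner_le_norm _ _).trans (mul_le_of_le_one_left (norm_nonneg _) (hτk k x))) ?_)
      filter_upwards [hnull _ (ae_differentiable hψ)] with x hx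
      exact (tendsto_yreg hψc hψ (not_not.1 hx)
        tendsto_one_div_add_atTop_nhds_zero_nat).inner tendsto_const_nhds
    have hfat : ENNReal.ofReal n * ∫⁻ z, ENNReal.ofReal (G z) * (volume (B n) * ρ z) ^ (n : ℝ)⁻¹
        ≤ ENNReal.ofReal R₀ := by
      have hpt : ∀ z, Tendsto (fun k => ENNReal.ofReal n * (ENNReal.ofReal (G (z + l k • grad ψ z))
          * (volume (B n) * ρ z) ^ (n : ℝ)⁻¹)) atTop
          (𝓝 (ENNReal.ofReal n * (ENNReal.ofReal (G z) * (volume (B n) * ρ z) ^ (n : ℝ)⁻¹))) := by
        intro z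
        by_cases hz : (volume (B n) * ρ z) ^ (n : ℝ)⁻¹ = (⊤ : ℝ≥0∞)
        · exfalso
          rw [ENNReal.rpow_eq_top_iff_of_pos (by positivity), ENNReal.mul_eq_top] at hz
          rcases hz with ⟨-, h⟩ | ⟨h, -⟩
          · by_cases hzU : z ∈ X '' U
            · obtain ⟨x, hx, rfl⟩ := hzU
              rw [hρX x hx] at h
              simp only [r, indicator] at h
              split_ifs at h <;> simp at h
            · rw [hρ0 z hzU] at h; exact absurd h ENNReal.zero_ne_top
          · exact isCompact_B.measure_lt_top.ne h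
        · have h1 : Tendsto (fun k => z + l k • grad ψ z) atTop (𝓝 z) := by
            simpa [l] using (tendsto_one_div_add_atTop_nhds_zero_nat (𝕜 := ℝ)).smul_const
              (grad ψ z) |>.const_add z
          exact ENNReal.Tendsto.const_mul (ENNReal.Tendsto.mul_const
            (((ENNReal.continuous_ofReal.comp hGc).tendsto z).comp h1) (Or.inr hz))
            (Or.inr ENNReal.ofReal_ne_top)
      have hmeas : ∀ k, Measurable fun z => ENNReal.ofReal n
          * (ENNReal.ofReal (G (z + l k • grad ψ z)) * (volume (B n) * ρ z) ^ (n : ℝ)⁻¹) :=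
        fun k => ((hGc.measurable.comp (measurable_id.add
          ((measurable_grad ψ).const_smul (l k)))).ennreal_ofReal.mul
          ((hρ.const_mul _).pow_const _)).const_mul _
      rw [← lintegral_const_mul' _ _ ENNReal.ofReal_ne_top]
      calc ∫⁻ z, ENNReal.ofReal n * (ENNReal.ofReal (G z) * (volume (B n) * ρ z) ^ (n : ℝ)⁻¹)
          = ∫⁻ z, liminf (fun k => ENNReal.ofReal n * (ENNReal.ofReal (G (z + l k • grad ψ z))
              * (volume (B n) * ρ z) ^ (n : ℝ)⁻¹)) atTop :=
            lintegral_congr fun z => (hpt z).liminf_eq.symm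
        _ ≤ liminf (fun k => ∫⁻ z, ENNReal.ofReal n * (ENNReal.ofReal (G (z + l k • grad ψ z))
              * (volume (B n) * ρ z) ^ (n : ℝ)⁻¹)) atTop := lintegral_liminf_le hmeas
        _ ≤ liminf (fun k => ENNReal.ofReal
              ((∫ x in C, dWt x) - ∫ x in C, ⟪τ k x, g2 x⟫)) atTop := by
            refine liminf_le_liminf (Eventually.of_forall fun k => ?_)
            simp only [lintegral_const_mul' _ _ ENNReal.ofReal_ne_top]
            exact (hk k).2
        _ = ENNReal.ofReal R₀ := ((ENNReal.continuous_ofReal.tendsto _).comp hlim).liminf_eq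
    -- evaluate the transported side
    have hQ : ∫⁻ z, ENNReal.ofReal (G z) * (volume (B n) * ρ z) ^ (n : ℝ)⁻¹
        = ENNReal.ofReal (c0 ^ (n : ℝ)⁻¹ * Q) := by
      have hc0 : 0 ≤ c0 := div_nonneg measureReal_nonneg hV.le
      rw [hchg _ fun z hz => by rw [hG0 z hz, ENNReal.ofReal_zero, zero_mul], ← integral_const_mul,
        ofReal_integral_eq_lintegral_ofReal
          ((hintC (fun x => f x * dens M x) (hfc.continuousOn.mul hqc)).const_mul _)
          ((ae_restrict_mem hCm).mono fun x hx => mul_nonneg (Real.rpow_nonneg hc0 _)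
            (mul_nonneg (hf0 x) (hq x (hCU hx)).le)),
        setLIntegral_eq_of_support_subset_aux hP.isOpen.measurableSet hCm hCU fun x hxU hx => by
          rw [hGX x hxU]; simp [g0, hfA x fun h => hx (hAC h)]]
      refine setLIntegral_congr_fun hCm fun x hxC => ?_
      have hxU := hCU hxC
      simp only [hGX x hxU, hρX x hxU]
      by_cases hxA : x ∈ A
      · simp only [r]
        have hd := hP.det_dcoord_pos hδ hxU
        have hm := hP.toFrame.det_pos hxU
        have hqx := hq x hxU
        have hPd : (P x).det = (dX x).det * (M x).det := hP.det_comp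
        have hfx := hf0 x
        rw [indicator_of_mem hxA, ← ofReal_measureReal isCompact_B.measure_lt_top.ne,
          ← ENNReal.ofReal_mul measureReal_nonneg,
          ENNReal.ofReal_rpow_of_nonneg (by positivity) (by positivity),
          ← ENNReal.ofReal_mul (by simp only [g0]; rw [hPd]; positivity),
          ← ENNReal.ofReal_mul hd.le]
        congr 1
        simp only [g0]
        rw [hPd]
        have key : ((dX x).det * (M x).det) ^ (n : ℝ)⁻¹
            * (volume.real (B n) * (dens M x / (V * (dX x).det))) ^ (n : ℝ)⁻¹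
            = c0 ^ (n : ℝ)⁻¹ := by
          rw [← Real.mul_rpow (by positivity) (by positivity)]
          congr 1
          rw [hP.toFrame.dens_eq hxU]
          simp only [c0]
          field_simp [hd.ne', hm.ne', hV.ne', show (dX x).det ≠ 0 from hd.ne']
        rw [← key]
        simp only [dX]
        field_simp
      · simp [g0, hfA x hxA]
    rw [hQ, ← ENNReal.ofReal_mul (by positivity)] at hfat
    have hc : (n : ℝ) * (c0 ^ (n : ℝ)⁻¹ * Q) = isoConst n * V ^ (-(n : ℝ)⁻¹) * Q := by
      simp only [c0, isoConst, kap]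
      rw [Real.div_rpow measureReal_nonneg hV.le, Real.rpow_neg hV.le, div_eq_mul_inv]
      ring
    have hQ0 : 0 ≤ Q := setIntegral_nonneg hCm fun x hx => mul_nonneg (hf0 x) (hq x (hCU hx)).le
    have hiso := (isoConst_pos hn).le
    have hR₀ : 0 ≤ R₀ := ge_of_tendsto' hlim fun k => (hk k).1
    have := (ENNReal.ofReal_le_ofReal_iff hR₀).1 hfat
    rw [hc] at this
    simp only [R₀] at this
    linarith
  · -- the error term
    have h0 := inner_grad_nonneg hψ hμac hμK hmap
    rw [integral_map (f := fun z => ⟪grad ψ z, z⟫) hY.continuous.measurable.aemeasurable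
      ((measurable_grad ψ).inner measurable_id).aestronglyMeasurable,
      integral_withDensity_eq_integral_toReal_smul₀ hqm
        (ae_of_all _ fun x => ENNReal.ofReal_lt_top)] at h0
    have h1 : 0 ≤ ∫ x in A, dens M x * ⟪grad ψ (Y x), X x⟫ := by
      have h2 : (∫ x in A, dens M x * ⟪grad ψ (Y x), X x⟫) / V
          = ∫ x in A, (ENNReal.ofReal (dens M x / V)).toReal • ⟪grad ψ (Y x), Y x⟫ := by
        rw [← integral_div]
        refine setIntegral_congr_fun hA.measurableSet fun x hx => ?_
        simp only [smul_eq_mul]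
        rw [ENNReal.toReal_ofReal (div_nonneg (hq x (hAU hx)).le hV.le), hYeq x (hAC hx)]
        ring
      rw [← h2] at h0
      exact (div_nonneg_iff.1 h0).elim (fun h => h.1) fun h => absurd h.2 (not_le.2 hV)
    have hi : ∀ g : E n → E n, ContinuousOn g U →
        IntegrableOn (fun x => dens M x * ⟪grad ψ (Y x), g x⟫) A := by
      intro g hg
      refine Integrable.mono' (((hintC _ (hqc.mul hg.norm))).mono_set hAC)
        ((((hqc.mono hAU).aemeasurable hA.measurableSet).mul (hτm.aemeasurable.inner
          ((hg.mono hAU).aemeasurable hA.measurableSet)))).aestronglyMeasurable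
        ((ae_restrict_mem hA.measurableSet).mono fun x hx => ?_)
      rw [norm_mul, Real.norm_eq_abs, abs_of_pos (hq x (hAU hx))]
      exact mul_le_mul_of_nonneg_left ((norm_inner_le_norm _ _).trans
        (mul_le_of_le_one_left (norm_nonneg _) (hτ1 x))) (hq x (hAU hx)).le
    have hid := hi (fun x => x) continuousOn_id
    have e : ∀ x, dens M x * ⟪grad ψ (Y x), X x⟫ = dens M x * ⟪grad ψ (Y x), frameD M x⟫
        + δ * (dens M x * ⟪grad ψ (Y x), x⟫) := fun x => by
      simp only [X, coord]
      rw [inner_add_right, real_inner_smul_right]; ring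
    simp only [e] at h1
    rw [integral_add (hi _ hDc) (hid.const_mul δ), integral_const_mul] at h1
    have h2 : ∫ x in A, dens M x * ⟪grad ψ (Y x), x⟫ ≤ ∫ x in A, dens M x * ‖x‖ := by
      refine setIntegral_mono_on hid ((hintC _ (hqc.mul continuousOn_id.norm)).mono_set hAC)
        hA.measurableSet fun x hx => mul_le_mul_of_nonneg_left ?_ (hq x (hAU hx)).le
      exact (real_inner_le_norm _ _).trans (mul_le_of_le_one_left (norm_nonneg _) (hτ1 x))
    nlinarith [mul_le_mul_of_nonneg_left h2 hδ.le]

end Vale.Agent.P219.Transport
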