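import Vale.Agent.P219.Transport.Level

/-!
# P219: the sharp Sobolev inequality for a frame with potential

`level` is applied to the superlevel set `{t < w}` and the ramps `s (k (w - t))`. Integrating in
`t` and letting `δ → 0`, `k → ∞` bounds `∫ vol{t < w}^((n-1)/n) dt`; Hölder in layers finishes.
-/

namespace Vale.Agent.P219.Transport

open MeasureTheory Set Filter Topology Metric
open scoped RealInnerProductSpace ENNReal NNReal

variable {n : ℕ} {M : E n → E n →L[ℝ] E n} {U : Set (E n)}

/-- Hölder in layers. -/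
lemma rpow_lintegral_le_layers {α : Type*} [TopologicalSpace α] [MeasurableSpace α] [BorelSpace α]
    (μ : Measure α) {w : α → ℝ} (hwc : Continuous w) (h0 : ∀ x, 0 ≤ w x) {N : ℝ} (hN : 1 < N)
    (hfin : ∫⁻ x, ENNReal.ofReal (w x ^ (N / (N - 1))) ∂μ ≠ ⊤) :
    (∫⁻ x, ENNReal.ofReal (w x ^ (N / (N - 1))) ∂μ) ^ ((N - 1) / N)
      ≤ ∫⁻ l in Ioi (0 : ℝ), μ {x | l < w x} ^ ((N - 1) / N) := by
  set p : ℝ := N / (N - 1) with hp
  set a : ℝ := (N - 1) / N with ha
  have hN0 : 0 < N := by linarith
  have hN1 : 0 < N - 1 := by linarith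
  have hp0 : 0 < p := by positivity
  have ha0 : 0 < a := by positivity
  have hp1 : 0 < p - 1 := by rw [hp, sub_pos, one_lt_div hN1]; linarith
  set g : α → ℝ≥0∞ := fun x => ENNReal.ofReal (w x ^ (p - 1))
  have hgm : Measurable g :=
    ENNReal.measurable_ofReal.comp (hwc.rpow_const fun _ => Or.inr hp1.le).measurable
  set I := ∫⁻ x, ENNReal.ofReal (w x ^ p) ∂μ with hI
  have hint : ∀ x, g x ^ N = ENNReal.ofReal (w x ^ p) := by
    intro x
    simp only [g]
    rw [ENNReal.ofReal_rpow_of_nonneg (Real.rpow_nonneg (h0 x) _) hN0.le, ← Real.rpow_mul (h0 x),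
      show (p - 1) * N = p by rw [hp]; field_simp; ring]
  have hIle : I ≤ (∫⁻ l in Ioi (0 : ℝ), μ {x | l < w x} ^ a) * I ^ N⁻¹ := by
    have e1 : I = ∫⁻ x, ENNReal.ofReal (w x) ∂(μ.withDensity g) := by
      rw [lintegral_withDensity_eq_lintegral_mul _ hgm hwc.measurable.ennreal_ofReal, hI]
      refine lintegral_congr fun x => ?_
      show _ = g x * ENNReal.ofReal (w x)
      simp only [g]
      rw [← ENNReal.ofReal_mul (Real.rpow_nonneg (h0 x) _)]
      congr 1
      rcases (h0 x).eq_or_lt with h | h
      · rw [← h, mul_zero, Real.zero_rpow hp0.ne']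
      · rw [← Real.rpow_add_one h.ne', sub_add_cancel]
    refine e1.le.trans ?_
    rw [lintegral_eq_lintegral_meas_lt _ (ae_of_all _ h0) hwc.aemeasurable,
      ← lintegral_mul_const' _ _ (ENNReal.rpow_ne_top_of_nonneg (by positivity) hfin)]
    refine setLIntegral_mono' measurableSet_Ioi fun l _ => ?_
    have hA : MeasurableSet {x | l < w x} := (isOpen_lt continuous_const hwc).measurableSet
    have hpq : Real.HolderConjugate N p := by
      rw [Real.holderConjugate_iff]
      refine ⟨hN, ?_⟩
      rw [hp, inv_div]; field_simp; ring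
    have hH := ENNReal.lintegral_mul_le_Lp_mul_Lq μ hpq hgm.aemeasurable
      ((measurable_one.indicator hA).aemeasurable (μ := μ))
    rw [withDensity_apply _ hA, ← lintegral_indicator hA]
    refine le_trans (le_of_eq ?_) (hH.trans ?_)
    · refine lintegral_congr fun x => ?_
      by_cases hx : x ∈ {x | l < w x} <;> simp [hx]
    · rw [mul_comm, show (1 : ℝ) / N = N⁻¹ from one_div _]
      refine mul_le_mul' (le_of_eq ?_) (le_of_eq ?_)
      · have e2 : (fun x => ({x | l < w x}.indicator (1 : α → ℝ≥0∞) x) ^ p)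
            = {x | l < w x}.indicator 1 := by
          funext x
          by_cases hx : x ∈ {x | l < w x} <;> simp [hx, ENNReal.zero_rpow_of_pos hp0]
        rw [e2, lintegral_indicator_one hA]
        congr 1
        rw [hp, ha, one_div_div]
      · simp only [hint]
        rfl
  rcases eq_or_ne I 0 with h | h
  · rw [h, ENNReal.zero_rpow_of_pos ha0]; exact zero_le
  · have e : I ^ a = I / I ^ N⁻¹ := by
      rw [show a = 1 - N⁻¹ by rw [ha]; field_simp, ENNReal.rpow_sub _ _ h hfin, ENNReal.rpow_one]
    rw [e]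
    exact ENNReal.div_le_of_le_mul hIle

/-- The ramp has total height at most one. -/
lemma lintegral_ramp_le {k : ℝ} (hk : 0 ≤ k) (a : ℝ) :
    ∫⁻ t in Ioi (0 : ℝ), ENNReal.ofReal (k * deriv Real.smoothTransition (k * (a - t))) ≤ 1 := by
  set s := Real.smoothTransition
  have hd : ∀ u, HasDerivAt s (deriv s u) u := fun u =>
    ((Real.smoothTransition.contDiff (n := 1)).differentiable one_ne_zero u).hasDerivAt
  have hs' : ∀ u, 0 ≤ deriv s u := fun u => Real.smoothTransition.monotone.deriv_nonneg
  have hG : ∀ t ∈ Ici (0 : ℝ), HasDerivAt (fun t => -s (k * (a - t))) (k * deriv s (k * (a - t))) t := by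
    intro t _
    refine (((hd _).comp t (((hasDerivAt_id t).const_sub a).const_mul k)).neg).congr_deriv ?_
    simp [mul_comm]
  rcases hk.eq_or_lt with rfl | hk'
  · simp
  have hlim : Tendsto (fun t => -s (k * (a - t))) atTop (𝓝 0) := by
    refine tendsto_const_nhds.congr' ?_
    filter_upwards [eventually_ge_atTop a] with t ht
    have hz : k * (a - t) ≤ 0 := mul_nonpos_of_nonneg_of_nonpos hk (sub_nonpos.2 ht)
    simp [s, Real.smoothTransition.zero_of_nonpos hz]
  have hpos : ∀ t ∈ Ioi (0 : ℝ), 0 ≤ k * deriv s (k * (a - t)) := fun t _ => mul_nonneg hk (hs' _)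
  rw [← ofReal_integral_eq_lintegral_ofReal (integrableOn_Ioi_deriv_of_nonneg' hG hpos hlim)
    ((ae_restrict_mem measurableSet_Ioi).mono hpos),
    integral_Ioi_of_hasDerivAt_of_nonneg' hG hpos hlim, ← ENNReal.ofReal_one]
  refine ENNReal.ofReal_le_ofReal ?_
  simpa [s] using Real.smoothTransition.le_one _

/-- The superlevel bound, integrated over the levels. -/
theorem coarea_lower (hn : 2 ≤ n) (hP : Potential U M) {w : E n → ℝ} (hw : ContDiff ℝ 1 w)
    (hc : HasCompactSupport w) (hs : tsupport w ⊆ U) :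
    ENNReal.ofReal (isoConst n) * ∫⁻ t in Ioi (0 : ℝ),
        (volume.withDensity fun x => ENNReal.ofReal ((tsupport w).indicator (dens M) x))
          {x | t < w x} ^ (((n : ℝ) - 1) / n)
      ≤ ENNReal.ofReal (∫ x in U, dens M x * ‖(fderiv ℝ w x).comp (M x)‖) := by
  have hn0 : 0 < n := by omega
  have hn2 : (2 : ℝ) ≤ n := by exact_mod_cast hn
  have hc0 := isoConst_pos hn0
  set c := isoConst n
  set ξ : ℝ := ((n : ℝ) - 1) / n
  have hξ : 0 < ξ := div_pos (by linarith) (by linarith)
  set K := tsupport w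
  have hK : IsCompact K := hc
  have hKm : MeasurableSet K := hK.isClosed.measurableSet
  have hwc := hw.continuous
  have hq : ∀ x ∈ U, 0 < dens M x := fun x hx => hP.dens_pos hx
  have hqc : ContinuousOn (dens M) U := hP.contDiffOn_dens.continuousOn
  have hDc : ContinuousOn (frameD M) U := hP.contDiffOn_frameD.continuousOn
  have hintK : ∀ φ : E n → ℝ, ContinuousOn φ U → IntegrableOn φ K := fun φ hφ =>
    (hφ.mono hs).integrableOn_compact hK
  set μ : Measure (E n) := volume.withDensity fun x => ENNReal.ofReal (K.indicator (dens M) x)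
  set g : E n → ℝ := fun x => dens M x * ‖(fderiv ℝ w x).comp (M x)‖
  have hg0 : ∀ x, x ∉ K → g x = 0 := fun x hx => by simp [g, fderiv_of_notMem_tsupport ℝ hx]
  have hgU : ContinuousOn g U := hqc.mul
    ((hw.continuous_fderiv one_ne_zero).continuousOn.clm_comp hP.smooth.continuousOn).norm
  have hgc : Continuous g := by
    refine continuous_iff_continuousAt.2 fun x => ?_
    by_cases hx : x ∈ U
    · exact hgU.continuousAt (hP.isOpen.mem_nhds hx)
    · refine (continuousAt_const (y := (0 : ℝ))).congr ?_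
      filter_upwards [hK.isClosed.isOpen_compl.mem_nhds fun h => hx (hs h)] with y hy
      exact (hg0 y hy).symm
  have hgnn : ∀ x, 0 ≤ g x := fun x => mul_nonneg (inv_nonneg.2 (abs_nonneg _)) (norm_nonneg _)
  have hgi : Integrable g :=
    hgc.integrable_of_hasCompactSupport (HasCompactSupport.intro hK hg0)
  have hG : ∫ x in U, g x = ∫ x, g x :=
    setIntegral_eq_integral_of_forall_compl_eq_zero fun x hx => hg0 x fun h => hx (hs h)
  -- the ramps
  set S := Real.smoothTransition
  have hS : ContDiff ℝ 1 S := Real.smoothTransition.contDiff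
  have hS' : ∀ u, 0 ≤ deriv S u := fun u => Real.smoothTransition.monotone.deriv_nonneg
  have hSc : Continuous (deriv S) := hS.continuous_deriv le_rfl
  set f : ℕ → ℝ → E n → ℝ := fun k t x => S (k * (w x - t))
  set Φ : ℕ → ℝ → E n → ℝ≥0∞ := fun k t x =>
    ENNReal.ofReal (k * deriv S (k * (w x - t))) * ENNReal.ofReal (g x)
  have hΦm : ∀ k, Measurable (Function.uncurry (Φ k)) := fun k =>
    ((by fun_prop : Continuous fun p : ℝ × E n => (k : ℝ) * deriv S (k * (w p.2 - p.1))).measurable
      |>.ennreal_ofReal).mul (hgc.comp continuous_snd).measurable.ennreal_ofReal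
  -- integrated over the levels the ramps give at most the right side
  have hup : ∀ k, ∫⁻ t in Ioi (0 : ℝ), ∫⁻ x, Φ k t x ≤ ENNReal.ofReal (∫ x in U, g x) := by
    intro k
    rw [hG, ofReal_integral_eq_lintegral_ofReal hgi (ae_of_all _ hgnn),
      lintegral_lintegral_swap (hΦm k).aemeasurable]
    refine lintegral_mono fun x => ?_
    simp only [Φ]
    rw [lintegral_mul_const' _ _ ENNReal.ofReal_ne_top]
    exact (mul_le_mul' (lintegral_ramp_le (Nat.cast_nonneg k) (w x)) le_rfl).trans (one_mul _).le
  -- one level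
  have hlow : ∀ t ∈ Ioi (0 : ℝ), ENNReal.ofReal c * μ {x | t < w x} ^ ξ
      ≤ liminf (fun k => ∫⁻ x, Φ k t x) atTop := by
    intro t ht
    set A := {x | t < w x}
    have hA : IsOpen A := isOpen_lt continuous_const hwc
    have hAm := hA.measurableSet
    have hAK : A ⊆ K := fun x hx => subset_tsupport w (ne_of_gt (lt_trans ht (show t < w x from hx)))
    have hAU : A ⊆ U := hAK.trans hs
    rcases eq_empty_or_nonempty A with he | hne
    · simp [he, ENNReal.zero_rpow_of_pos hξ]
    have hcl : closure A ⊆ K := closure_minimal hAK hK.isClosed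
    have hclc : IsCompact (closure A) := hK.of_isClosed_subset isClosed_closure hcl
    have hintA : ∀ φ : E n → ℝ, ContinuousOn φ U → IntegrableOn φ A := fun φ hφ =>
      (hintK φ hφ).mono_set hAK
    set V := ∫ x in A, dens M x
    have hV0 : 0 < V := by
      rw [setIntegral_pos_iff_support_of_nonneg_ae
        ((ae_restrict_mem hAm).mono fun x hx => (hq x (hAU hx)).le) (hintA _ hqc)]
      exact lt_of_lt_of_le (hA.measure_pos volume hne)
        (measure_mono fun x hx => ⟨(hq x (hAU hx)).ne', hx⟩)
    have hμA : μ A = ENNReal.ofReal V := by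
      simp only [μ]
      rw [withDensity_apply _ hAm, ofReal_integral_eq_lintegral_ofReal (hintA _ hqc)
        ((ae_restrict_mem hAm).mono fun x hx => (hq x (hAU hx)).le)]
      exact setLIntegral_congr_fun hAm fun x hx => by rw [indicator_of_mem (hAK hx)]
    have hfc : ∀ k : ℕ, ContDiff ℝ 1 (f k t) := fun k =>
      hS.comp (contDiff_const.mul (hw.sub contDiff_const))
    have hf0 : ∀ (k : ℕ) x, 0 ≤ f k t x := fun k x => Real.smoothTransition.nonneg _
    have hf1 : ∀ (k : ℕ) x, f k t x ≤ 1 := fun k x => Real.smoothTransition.le_one _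
    have hfA : ∀ (k : ℕ) x, x ∉ A → f k t x = 0 := fun k x hx =>
      Real.smoothTransition.zero_of_nonpos
        (mul_nonpos_of_nonneg_of_nonpos (Nat.cast_nonneg k) (sub_nonpos.2 (not_lt.1 hx)))
    have hdf : ∀ (k : ℕ) x, dens M x * ‖(fderiv ℝ (f k t) x).comp (M x)‖
        = k * deriv S (k * (w x - t)) * g x := by
      intro k x
      have h1 : HasFDerivAt (f k t)
          (deriv S (k * (w x - t)) • ((k : ℝ) • fderiv ℝ w x)) x :=
        ((hS.differentiable one_ne_zero _).hasDerivAt).comp_hasFDerivAt x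
          (((hw.differentiable one_ne_zero x).hasFDerivAt.sub_const t).const_mul _)
      simp only [g]
      rw [h1.fderiv, ContinuousLinearMap.smul_comp, ContinuousLinearMap.smul_comp, norm_smul,
        norm_smul, Real.norm_eq_abs, Real.norm_eq_abs, abs_of_nonneg (hS' _), Nat.abs_cast]
      ring
    set a := c * V ^ (-(n : ℝ)⁻¹)
    set Q : ℕ → ℝ := fun k => a * (∫ x in A, f k t x * dens M x)
      - ∫ x in A, (1 - f k t x) * (dens M x * ‖frameD M x‖)
    -- `level`, with `δ → 0`
    have hk : ∀ k, ENNReal.ofReal (Q k) ≤ ∫⁻ x, Φ k t x := by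
      intro k
      have hfk := (hfc k).continuous.continuousOn (s := U)
      have hBk : Continuous fun x => (k : ℝ) * deriv S (k * (w x - t)) * g x := by fun_prop
      have hkg : ∀ x, 0 ≤ (k : ℝ) * deriv S (k * (w x - t)) * g x := fun x =>
        mul_nonneg (mul_nonneg (Nat.cast_nonneg k) (hS' _)) (hgnn x)
      have hkey : Q k ≤ ∫ x in A, (k : ℝ) * deriv S (k * (w x - t)) * g x := by
        refine le_of_forall_pos_le_add fun ε hε => ?_
        set δ := ε / (|∫ x in A, dens M x * ‖x‖| + 1)
        have hδ : 0 < δ := by positivity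
        obtain ⟨τ, hτm, hτ1, hlev, herr⟩ := level hn0 hP hδ hA hne hclc (hcl.trans hs)
        have h1 := hlev (f k t) (hfc k) (hf0 k) (hfA k)
        simp only [hdf] at h1
        have hiτ : ∀ φ : E n → ℝ, ContinuousOn φ U →
            IntegrableOn (fun x => φ x * ⟪τ x, frameD M x⟫) A := by
          intro φ hφ
          refine Integrable.mono' (hintA _ (hφ.norm.mul hDc.norm))
            (((hφ.mono hAU).aemeasurable hAm).mul (hτm.aemeasurable.inner
              ((hDc.mono hAU).aemeasurable hAm))).aestronglyMeasurable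
            (ae_of_all _ fun x => ?_)
          rw [norm_mul]
          exact mul_le_mul_of_nonneg_left ((norm_inner_le_norm _ _).trans
            (mul_le_of_le_one_left (norm_nonneg _) (hτ1 x))) (norm_nonneg _)
        have i1 : IntegrableOn (fun x => f k t x * dens M x * ⟪τ x, frameD M x⟫) A :=
          hiτ _ (hfk.mul hqc)
        have i2 : IntegrableOn (fun x => dens M x * ⟪τ x, frameD M x⟫) A := hiτ _ hqc
        have i3 : IntegrableOn (fun x => (1 - f k t x) * (dens M x * ‖frameD M x‖)) A :=
          hintA _ ((continuousOn_const.sub hfk).mul (hqc.mul hDc.norm))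
        have h2 : (∫ x in A, dens M x * ⟪τ x, frameD M x⟫)
              - (∫ x in A, (1 - f k t x) * (dens M x * ‖frameD M x‖))
            ≤ ∫ x in A, f k t x * dens M x * ⟪τ x, frameD M x⟫ := by
          rw [← integral_sub i2 i3]
          refine setIntegral_mono_on (i2.sub i3) i1 hAm fun x hx => ?_
          have h3 : ⟪τ x, frameD M x⟫ ≤ ‖frameD M x‖ :=
            (real_inner_le_norm _ _).trans (mul_le_of_le_one_left (norm_nonneg _) (hτ1 x))
          have h4 := mul_le_mul_of_nonneg_left h3
            (mul_nonneg (sub_nonneg.2 (hf1 k x)) (hq x (hAU hx)).le)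
          linarith
        have h5 : δ * |∫ x in A, dens M x * ‖x‖| ≤ ε := by
          simp only [δ]
          rw [div_mul_eq_mul_div, div_le_iff₀ (by positivity)]
          exact mul_le_mul_of_nonneg_left (by linarith) hε.le
        have h6 := mul_le_mul_of_nonneg_left (le_abs_self (∫ x in A, dens M x * ‖x‖)) hδ.le
        simp only [Q, a, c]
        linarith
      refine (ENNReal.ofReal_le_ofReal hkey).trans ?_
      rw [ofReal_integral_eq_lintegral_ofReal (hintA _ hBk.continuousOn) (ae_of_all _ hkg)]
      refine le_trans (setLIntegral_le_lintegral _ _) (lintegral_mono fun x => ?_)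
      simp only [Φ]
      rw [ENNReal.ofReal_mul (mul_nonneg (Nat.cast_nonneg k) (hS' _))]
    -- `k → ∞`
    have hlim : ∀ x ∈ A, Tendsto (fun k : ℕ => f k t x) atTop (𝓝 1) := by
      intro x hx
      have hd : 0 < w x - t := sub_pos.2 (show t < w x from hx)
      refine tendsto_const_nhds.congr' ?_
      obtain ⟨N, hN⟩ := exists_nat_ge (1 / (w x - t))
      filter_upwards [eventually_ge_atTop N] with k hk
      refine (Real.smoothTransition.one_of_one_le ?_).symm
      rw [div_le_iff₀ hd] at hN
      exact hN.trans (mul_le_mul_of_nonneg_right (by exact_mod_cast hk) hd.le)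
    have hdc : ∀ (φ : ℕ → E n → ℝ) (ψ l : E n → ℝ), ContinuousOn ψ U →
        (∀ k, ContinuousOn (φ k) U) → (∀ k, ∀ x ∈ A, ‖φ k x‖ ≤ ψ x) →
        (∀ x ∈ A, Tendsto (fun k => φ k x) atTop (𝓝 (l x))) →
        Tendsto (fun k => ∫ x in A, φ k x) atTop (𝓝 (∫ x in A, l x)) := by
      intro φ ψ l hψ hφ hb hl
      exact tendsto_integral_of_dominated_convergence ψ (fun k => (hintA _ (hφ k)).1) (hintA _ hψ)
        (fun k => (ae_restrict_mem hAm).mono (hb k)) ((ae_restrict_mem hAm).mono hl)
    have hQ : Tendsto Q atTop (𝓝 (c * V ^ ξ)) := by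
      have t1 : Tendsto (fun k => ∫ x in A, f k t x * dens M x) atTop (𝓝 V) := by
        refine hdc _ (dens M) _ hqc (fun k => (hfc k).continuous.continuousOn.mul hqc)
          (fun k x hx => ?_) fun x hx => by simpa using (hlim x hx).mul_const (dens M x)
        rw [norm_mul, Real.norm_eq_abs, Real.norm_eq_abs, abs_of_nonneg (hf0 k x),
          abs_of_pos (hq x (hAU hx))]
        exact mul_le_of_le_one_left (hq x (hAU hx)).le (hf1 k x)
      have t2 : Tendsto (fun k => ∫ x in A, (1 - f k t x) * (dens M x * ‖frameD M x‖)) atTop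
          (𝓝 0) := by
        have h := hdc (fun k x => (1 - f k t x) * (dens M x * ‖frameD M x‖))
          (fun x => dens M x * ‖frameD M x‖) (fun _ => 0) (hqc.mul hDc.norm)
          (fun k => (continuousOn_const.sub (hfc k).continuous.continuousOn).mul
            (hqc.mul hDc.norm))
          (fun k x hx => by
            rw [norm_mul, Real.norm_eq_abs, Real.norm_eq_abs,
              abs_of_nonneg (sub_nonneg.2 (hf1 k x)),
              abs_of_nonneg (mul_nonneg (hq x (hAU hx)).le (norm_nonneg _))]
            exact mul_le_of_le_one_left (mul_nonneg (hq x (hAU hx)).le (norm_nonneg _))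
              (sub_le_self _ (hf0 k x)))
          fun x hx => by simpa using ((hlim x hx).const_sub 1).mul_const (dens M x * ‖frameD M x‖)
        simpa using h
      have hn' : (n : ℝ) ≠ 0 := by positivity
      have hval : a * V - 0 = c * V ^ ξ := by
        simp only [a, ξ]
        rw [show ((n : ℝ) - 1) / n = -(n : ℝ)⁻¹ + 1 by field_simp; ring, Real.rpow_add hV0,
          Real.rpow_one]
        ring
      rw [← hval]
      exact (t1.const_mul a).sub t2
    rw [hμA, ENNReal.ofReal_rpow_of_pos hV0, ← ENNReal.ofReal_mul hc0.le]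
    calc ENNReal.ofReal (c * V ^ ξ) = liminf (fun k => ENNReal.ofReal (Q k)) atTop :=
          ((ENNReal.continuous_ofReal.tendsto _).comp hQ).liminf_eq.symm
      _ ≤ _ := liminf_le_liminf (Eventually.of_forall hk)
  -- Fatou in the level
  rw [← lintegral_const_mul' _ _ ENNReal.ofReal_ne_top]
  refine (setLIntegral_mono' measurableSet_Ioi hlow).trans
    ((lintegral_liminf_le fun k => (hΦm k).lintegral_prod_right').trans ?_)
  exact le_of_le_of_eq (liminf_le_liminf (Eventually.of_forall hup))
    (liminf_const (ENNReal.ofReal (∫ x in U, g x)))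

/-- The sharp Sobolev inequality for a frame with potential. -/
theorem sharp_potential (hn : 2 ≤ n) (hP : Potential U M) {w : E n → ℝ} (hw : ContDiff ℝ 1 w)
    (hc : HasCompactSupport w) (hs : tsupport w ⊆ U) (h0 : ∀ x, 0 ≤ w x) :
    isoConst n * (∫ x in U, dens M x * w x ^ ((n : ℝ) / (n - 1))) ^ (((n : ℝ) - 1) / n)
      ≤ ∫ x in U, dens M x * ‖(fderiv ℝ w x).comp (M x)‖ := by
  have hn2 : (2 : ℝ) ≤ n := by exact_mod_cast hn
  have hc0 := isoConst_pos (show 0 < n by omega)
  set p : ℝ := (n : ℝ) / (n - 1)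
  have hp : 0 < p := div_pos (by linarith) (by linarith)
  set K := tsupport w
  have hK : IsCompact K := hc
  have hKm : MeasurableSet K := hK.isClosed.measurableSet
  have hwp : Continuous fun x => w x ^ p := hw.continuous.rpow_const fun _ => Or.inr hp.le
  have hqw : IntegrableOn (fun x => dens M x * w x ^ p) K :=
    (((hP.contDiffOn_dens.continuousOn).mul hwp.continuousOn).mono hs).integrableOn_compact hK
  set μ : Measure (E n) := volume.withDensity fun x => ENNReal.ofReal (K.indicator (dens M) x)
  have hd0 : ∀ x, 0 ≤ dens M x := fun x => inv_nonneg.2 (abs_nonneg _)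
  have hnn : ∀ x, 0 ≤ dens M x * w x ^ p := fun x => mul_nonneg (hd0 x) (Real.rpow_nonneg (h0 x) _)
  have hindm : AEMeasurable (fun x => ENNReal.ofReal (K.indicator (dens M) x)) :=
    ((aemeasurable_indicator_iff hKm).2
      ((hP.contDiffOn_dens.continuousOn.mono hs).aemeasurable hKm)).ennreal_ofReal
  have hU : ∫ x in U, dens M x * w x ^ p = ∫ x in K, dens M x * w x ^ p :=
    setIntegral_eq_of_subset_of_forall_sdiff_eq_zero hP.isOpen.measurableSet hs fun x hx => by
      simp [image_eq_zero_of_notMem_tsupport hx.2, Real.zero_rpow hp.ne']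
  have hI : ∫⁻ x, ENNReal.ofReal (w x ^ p) ∂μ
      = ENNReal.ofReal (∫ x in U, dens M x * w x ^ p) := by
    rw [lintegral_withDensity_eq_lintegral_mul₀ hindm hwp.measurable.ennreal_ofReal.aemeasurable,
      hU, ofReal_integral_eq_lintegral_ofReal hqw (ae_of_all _ hnn), ← lintegral_indicator hKm]
    refine lintegral_congr fun x => ?_
    by_cases hx : x ∈ K
    · simp [indicator_of_mem hx, ENNReal.ofReal_mul (hd0 x)]
    · simp [indicator_of_notMem hx]
  have hL := rpow_lintegral_le_layers μ hw.continuous h0 (show (1 : ℝ) < n by linarith)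
    (show ∫⁻ x, ENNReal.ofReal (w x ^ p) ∂μ ≠ ⊤ from hI ▸ ENNReal.ofReal_ne_top)
  rw [hI] at hL
  have hJ : 0 ≤ ∫ x in U, dens M x * w x ^ p := integral_nonneg hnn
  rw [ENNReal.ofReal_rpow_of_nonneg hJ (div_nonneg (by linarith) (by linarith))] at hL
  have h := (mul_le_mul' le_rfl hL).trans (coarea_lower hn hP hw hc hs)
  rw [← ENNReal.ofReal_mul hc0.le] at h
  exact (ENNReal.ofReal_le_ofReal_iff
    (integral_nonneg fun x => mul_nonneg (hd0 x) (norm_nonneg _))).1 h

end Vale.Agent.P219.Transport
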