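import Vale.Agent.P219.Transport.Exist
import Vale.Agent.P219.Transport.Alg

/-!
# P219: the regularised potential and the Monge–Ampère inequality

For convex `ψ` and `l > 0` the maximiser `yreg ψ l z` of `⟪z, y⟫ - ψ y - l/2 ‖y‖²` over the ball
is `1/l`-Lipschitz and is the gradient of a `C¹` convex function. With `J z = z - l • yreg ψ l z`
it is the gradient of `conj ψ` at `J z`, so the area formula bounds its Jacobian from below by
the density of the measure transported by that gradient.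
-/

namespace Vale.Agent.P219.Transport

open MeasureTheory Set Filter Topology Metric
open scoped RealInnerProductSpace ENNReal NNReal

variable {n : ℕ} {ψ : E n → ℝ} {l : ℝ}

/-- The regularised potential. -/
noncomputable def reg (ψ : E n → ℝ) (l : ℝ) : E n → ℝ := fun y => ψ y + l / 2 * ‖y‖ ^ 2

open Classical in
/-- The maximiser of the regularised problem. -/
noncomputable def yreg (ψ : E n → ℝ) (l : ℝ) (z : E n) : E n :=
  if h : ∃ y ∈ B n, conj (reg ψ l) z = ⟪z, y⟫ - reg ψ l y then h.choose else 0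

/-- The resolvent. -/
noncomputable def res (ψ : E n → ℝ) (l : ℝ) (z : E n) : E n := z - l • yreg ψ l z

lemma continuous_reg (hψ : Continuous ψ) (l : ℝ) : Continuous (reg ψ l) := by
  unfold reg; fun_prop

lemma yreg_spec (hψ : Continuous ψ) (z : E n) :
    yreg ψ l z ∈ B n ∧ conj (reg ψ l) z = ⟪z, yreg ψ l z⟫ - reg ψ l (yreg ψ l z) := by
  have h := exists_conj (continuous_reg hψ l) z
  rw [yreg, dif_pos h]
  exact h.choose_spec

/-- The first-order condition: a maximiser at `z` maximises the unregularised problem at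
`z - l • y`. -/
lemma first_order (hc : ConvexOn ℝ univ ψ) (hψ : Continuous ψ) {z y : E n} (hy : y ∈ B n)
    (e : conj (reg ψ l) z = ⟪z, y⟫ - reg ψ l y) :
    conj ψ (z - l • y) = ⟪z - l • y, y⟫ - ψ y := by
  refine le_antisymm ?_ (le_conj hψ _ hy)
  obtain ⟨y', hy', e'⟩ := exists_conj hψ (z - l • y)
  rw [e', inner_sub_left, inner_sub_left, real_inner_smul_left, real_inner_smul_left]
  have key : ∀ s ∈ Ioo (0 : ℝ) 1, ⟪z, y' - y⟫ - (ψ y' - ψ y) - l * ⟪y, y' - y⟫
      - s * (l / 2 * ‖y' - y‖ ^ 2) ≤ 0 := by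
    intro s hs
    have hmem : (1 - s) • y + s • y' ∈ B n :=
      convex_closedBall (0 : E n) 1 hy hy' (by linarith [hs.2]) hs.1.le (by ring)
    have h1 := le_conj (continuous_reg hψ l) z hmem
    rw [e] at h1
    have h2 := hc.2 (mem_univ y) (mem_univ y') (by linarith [hs.2] : (0 : ℝ) ≤ 1 - s) hs.1.le
      (by ring)
    simp only [smul_eq_mul] at h2
    have e1 : (1 - s) • y + s • y' = y + s • (y' - y) := by module
    rw [e1] at h1 h2
    have h3 : ‖y + s • (y' - y)‖ ^ 2
        = ‖y‖ ^ 2 + 2 * (s * ⟪y, y' - y⟫) + s ^ 2 * ‖y' - y‖ ^ 2 := by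
      rw [norm_add_sq_real, real_inner_smul_right, norm_smul, Real.norm_eq_abs, mul_pow, sq_abs]
    simp only [reg] at h1
    rw [h3, inner_add_right, real_inner_smul_right] at h1
    have h4 : 0 ≤ s * -(⟪z, y' - y⟫ - (ψ y' - ψ y) - l * ⟪y, y' - y⟫
      - s * (l / 2 * ‖y' - y‖ ^ 2)) := by nlinarith
    linarith [(mul_nonneg_iff_of_pos_left hs.1).1 h4]
  have hlim : Tendsto (fun s : ℝ => ⟪z, y' - y⟫ - (ψ y' - ψ y) - l * ⟪y, y' - y⟫
      - s * (l / 2 * ‖y' - y‖ ^ 2)) (𝓝[>] 0)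
      (𝓝 (⟪z, y' - y⟫ - (ψ y' - ψ y) - l * ⟪y, y' - y⟫)) := by
    have h : Continuous fun s : ℝ => ⟪z, y' - y⟫ - (ψ y' - ψ y) - l * ⟪y, y' - y⟫
      - s * (l / 2 * ‖y' - y‖ ^ 2) := by fun_prop
    simpa using (h.tendsto 0).mono_left (nhdsWithin_le_nhds (s := Ioi (0 : ℝ)))
  have h0 := le_of_tendsto hlim (Filter.mem_of_superset
    (Ioo_mem_nhdsGT (zero_lt_one' ℝ)) fun s hs => key s hs)
  rw [inner_sub_right, inner_sub_right] at h0
  linarith

lemma mono_max (hψ : Continuous ψ) {x x' y y' : E n} (hy : y ∈ B n) (hy' : y' ∈ B n)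
    (e : conj ψ x = ⟪x, y⟫ - ψ y) (e' : conj ψ x' = ⟪x', y'⟫ - ψ y') :
    0 ≤ ⟪x - x', y - y'⟫ := by
  rw [inner_sub_left, inner_sub_right, inner_sub_right]
  linarith [le_conj hψ x hy', le_conj hψ x' hy]

lemma max_unique (hc : ConvexOn ℝ univ ψ) (hψ : Continuous ψ) (hl : 0 < l) {z y : E n}
    (hy : y ∈ B n) (e : conj ψ (z - l • y) = ⟪z - l • y, y⟫ - ψ y) : yreg ψ l z = y := by
  obtain ⟨hm, he⟩ := yreg_spec (l := l) hψ z
  have h := mono_max hψ hm hy (first_order hc hψ hm he) e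
  rw [show z - l • yreg ψ l z - (z - l • y) = -(l • (yreg ψ l z - y)) by module, inner_neg_left,
    real_inner_smul_left, real_inner_self_eq_norm_sq] at h
  have h2 : ‖yreg ψ l z - y‖ ^ 2 = 0 := by
    nlinarith [sq_nonneg ‖yreg ψ l z - y‖]
  rw [sq_eq_zero_iff, norm_eq_zero, sub_eq_zero] at h2
  exact h2

lemma res_max (hc : ConvexOn ℝ univ ψ) (hψ : Continuous ψ) (z : E n) :
    conj ψ (res ψ l z) = ⟪res ψ l z, yreg ψ l z⟫ - ψ (yreg ψ l z) :=
  first_order hc hψ (yreg_spec hψ z).1 (yreg_spec hψ z).2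

lemma mono_yreg (hc : ConvexOn ℝ univ ψ) (hψ : Continuous ψ) (z z' : E n) :
    0 ≤ ⟪res ψ l z - res ψ l z', yreg ψ l z - yreg ψ l z'⟫ :=
  mono_max hψ (yreg_spec hψ z).1 (yreg_spec hψ z').1 (res_max hc hψ z) (res_max hc hψ z')

lemma inner_yreg (hc : ConvexOn ℝ univ ψ) (hψ : Continuous ψ) (z z' : E n) :
    l * ‖yreg ψ l z - yreg ψ l z'‖ ^ 2 ≤ ⟪z - z', yreg ψ l z - yreg ψ l z'⟫ := by
  have h := mono_yreg (l := l) hc hψ z z'
  rw [res, res, show z - l • yreg ψ l z - (z' - l • yreg ψ l z')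
      = (z - z') - l • (yreg ψ l z - yreg ψ l z') by module, inner_sub_left,
    real_inner_smul_left, real_inner_self_eq_norm_sq] at h
  linarith

lemma lipschitz_yreg (hc : ConvexOn ℝ univ ψ) (hψ : Continuous ψ) (hl : 0 < l) :
    LipschitzWith l⁻¹.toNNReal (yreg ψ l) := by
  refine LipschitzWith.of_dist_le_mul fun z z' => ?_
  rw [Real.coe_toNNReal _ (inv_pos.2 hl).le, dist_eq_norm, dist_eq_norm, ← div_eq_inv_mul,
    le_div_iff₀ hl]
  have h := (inner_yreg (l := l) hc hψ z z').trans (real_inner_le_norm _ _)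
  rcases (norm_nonneg (yreg ψ l z - yreg ψ l z')).eq_or_lt with h0 | h0
  · rw [← h0, zero_mul]; exact norm_nonneg _
  · nlinarith

lemma lipschitz_res (hc : ConvexOn ℝ univ ψ) (hψ : Continuous ψ) (hl : 0 ≤ l) :
    LipschitzWith 1 (res ψ l) := by
  refine LipschitzWith.of_dist_le_mul fun z z' => ?_
  rw [NNReal.coe_one, one_mul, dist_eq_norm, dist_eq_norm]
  have h := mono_yreg (l := l) hc hψ z z'
  have h2 : ‖res ψ l z - res ψ l z'‖ ^ 2 ≤ ⟪z - z', res ψ l z - res ψ l z'⟫ := by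
    rw [← real_inner_self_eq_norm_sq]
    have e : z - z' = (res ψ l z - res ψ l z') + l • (yreg ψ l z - yreg ψ l z') := by
      unfold res; module
    rw [e, inner_add_left, real_inner_smul_left,
      real_inner_comm (res ψ l z - res ψ l z') (yreg ψ l z - yreg ψ l z')]
    linarith [mul_nonneg hl h]
  have h3 := h2.trans (real_inner_le_norm _ _)
  rcases (norm_nonneg (res ψ l z - res ψ l z')).eq_or_lt with h0 | h0
  · rw [← h0]; exact norm_nonneg _
  · nlinarith

lemma hasFDerivAt_conj_reg (hc : ConvexOn ℝ univ ψ) (hψ : Continuous ψ) (hl : 0 < l) (z : E n) :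
    HasFDerivAt (conj (reg ψ l)) (InnerProductSpace.toDual ℝ (E n) (yreg ψ l z)) z := by
  rw [hasFDerivAt_iff_isLittleO_nhds_zero]
  have hb : (fun v => conj (reg ψ l) (z + v) - conj (reg ψ l) z
      - InnerProductSpace.toDual ℝ (E n) (yreg ψ l z) v) =O[𝓝 0] fun v => ‖v‖ ^ 2 := by
    refine Asymptotics.IsBigO.of_bound l⁻¹ (Eventually.of_forall fun v => ?_)
    rw [InnerProductSpace.toDual_apply_apply, Real.norm_eq_abs, Real.norm_eq_abs,
      abs_of_nonneg (sq_nonneg ‖v‖)]
    have hr := continuous_reg hψ l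
    have h1 := subgradient hr (yreg_spec hψ z).1 (yreg_spec hψ z).2 v
    have h2 := subgradient hr (yreg_spec hψ (z + v)).1 (yreg_spec (l := l) hψ (z + v)).2 (-v)
    rw [add_neg_cancel_right, inner_neg_left] at h2
    have h3 : ⟪v, yreg ψ l (z + v)⟫ - ⟪v, yreg ψ l z⟫ ≤ l⁻¹ * ‖v‖ ^ 2 := by
      rw [← inner_sub_right]
      refine (real_inner_le_norm _ _).trans ?_
      have := (lipschitz_yreg hc hψ hl).dist_le_mul (z + v) z
      rw [dist_eq_norm, dist_self_add_left, Real.coe_toNNReal _ (inv_pos.2 hl).le] at this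
      nlinarith [norm_nonneg v]
    rw [real_inner_comm v (yreg ψ l z), abs_of_nonneg (by linarith)]
    linarith
  refine hb.trans_isLittleO ?_
  exact Asymptotics.isLittleO_norm_pow_id one_lt_two

lemma fderiv_symm (hc : ConvexOn ℝ univ ψ) (hψ : Continuous ψ) (hl : 0 < l) {z : E n}
    (hd : DifferentiableAt ℝ (yreg ψ l) z) (u v : E n) :
    ⟪fderiv ℝ (yreg ψ l) z u, v⟫ = ⟪u, fderiv ℝ (yreg ψ l) z v⟫ := by
  have h := second_derivative_symmetric_of_eventually
    (f := conj (reg ψ l)) (f' := fun x => InnerProductSpace.toDual ℝ (E n) (yreg ψ l x))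
    (Eventually.of_forall fun x => hasFDerivAt_conj_reg hc hψ hl x)
    (((InnerProductSpace.toDual ℝ (E n)).toContinuousLinearEquiv :
      E n ≃L[ℝ] _).toContinuousLinearMap.hasFDerivAt.comp z hd.hasFDerivAt) u v
  simp at h
  rw [real_inner_comm (fderiv ℝ (yreg ψ l) z v) u]
  exact h

lemma fderiv_nonneg (hc : ConvexOn ℝ univ ψ) (hψ : Continuous ψ) (hl : 0 ≤ l) {z : E n}
    (hd : DifferentiableAt ℝ (yreg ψ l) z) (v : E n) : 0 ≤ ⟪v, fderiv ℝ (yreg ψ l) z v⟫ := by
  refine ge_of_tendsto ((tendsto_const_nhds (x := v)).inner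
    (hd.hasFDerivAt.hasLineDerivAt v).tendsto_slope_zero_right) ?_
  filter_upwards [self_mem_nhdsWithin] with t (ht : (0 : ℝ) < t)
  have h := inner_yreg (l := l) hc hψ (z + t • v) z
  rw [add_sub_cancel_left, real_inner_smul_left] at h
  rw [real_inner_smul_right]
  have h2 : 0 ≤ t * ⟪v, yreg ψ l (z + t • v) - yreg ψ l z⟫ :=
    le_trans (mul_nonneg hl (sq_nonneg _)) h
  exact mul_nonneg (inv_nonneg.2 ht.le) ((mul_nonneg_iff_of_pos_left ht).1 h2)

lemma hausdorff_null {f : E n → E n} {K : ℝ≥0} (hf : LipschitzWith K f) {N : Set (E n)}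
    (hN : volume N = 0) : volume (f '' N) = 0 := by
  have h1 : (μH[(Module.finrank ℝ (E n) : ℝ)] : Measure (E n)) ≪ volume :=
    Measure.absolutelyContinuous_isAddHaarMeasure _ _
  have h2 : volume ≪ (μH[(Module.finrank ℝ (E n) : ℝ)] : Measure (E n)) :=
    Measure.absolutelyContinuous_isAddHaarMeasure _ _
  refine h2 (le_antisymm ((hf.hausdorffMeasure_image_le (by positivity) N).trans ?_) zero_le)
  rw [h1 hN, mul_zero]

/-- The regularised Monge–Ampère inequality, integrated. -/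
theorem reg_ineq (hn : 0 < n) (hc : ConvexOn ℝ univ ψ) (hψ : Continuous ψ) (hl : 0 < l)
    {ρ : E n → ℝ≥0∞} (hρ : Measurable ρ)
    (hmap : (volume.withDensity ρ).map (grad ψ) = unifBall n)
    (G : E n → ℝ≥0∞) :
    ∫⁻ x, G (x + l • grad ψ x) * (volume (B n) * ρ x) ^ ((n : ℝ)⁻¹)
      ≤ ∫⁻ z, G z * ENNReal.ofReal (fderiv ℝ (yreg ψ l) z).det ^ ((n : ℝ)⁻¹) := by
  set y := yreg ψ l
  set J := res ψ l
  have hy := lipschitz_yreg hc hψ hl
  have hJ := lipschitz_res hc hψ hl.le
  set S₀ := {x | DifferentiableAt ℝ (conj ψ) x}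
  set Z := {z | DifferentiableAt ℝ y z} ∩ J ⁻¹' S₀
  have hS₀ : MeasurableSet S₀ := measurableSet_of_differentiableAt ℝ _
  have hZ : MeasurableSet Z :=
    (measurableSet_of_differentiableAt ℝ _).inter (hJ.continuous.measurable hS₀)
  have hyJ : ∀ z ∈ Z, y z = grad ψ (J z) := fun z hz =>
    eq_grad hψ hz.2 (yreg_spec hψ z).1 (res_max hc hψ z)
  have hback : ∀ z ∈ Z, J z + l • grad ψ (J z) = z := fun z hz => by
    rw [← hyJ z hz]; exact sub_add_cancel _ _
  have hinj : InjOn J Z := fun a ha b hb e => by rw [← hback a ha, ← hback b hb, e]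
  have hdJ : ∀ z ∈ Z, HasFDerivWithinAt J (fderiv ℝ J z) Z z := fun z hz =>
    ((differentiableAt_id.sub (hz.1.const_smul l) :
      DifferentiableAt ℝ J z)).hasFDerivAt.hasFDerivWithinAt
  set Dy := fun z => fderiv ℝ y z
  set dJ := fun z => ENNReal.ofReal |(fderiv ℝ J z).det|
  have hdet0 : ∀ z ∈ Z, 0 ≤ (Dy z).det := fun z hz =>
    det_nonneg (fderiv_symm hc hψ hl hz.1) (fderiv_nonneg hc hψ hl.le hz.1)
  -- the pointwise inequality
  have hdetm : ∀ f : E n → E n, Measurable fun z => (fderiv ℝ f z).det := fun f =>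
    ContinuousLinearMap.continuous_det.measurable.comp (measurable_fderiv ℝ f)
  have key : (fun z => volume (B n) * (dJ z * ρ (J z)))
      ≤ᵐ[volume.restrict Z] fun z => ENNReal.ofReal (Dy z).det := by
    refine ae_le_of_forall_setLIntegral_le_of_sigmaFinite
      (((hdetm J).norm.ennreal_ofReal.mul (hρ.comp hJ.continuous.measurable)).const_mul _)
      fun s hs _ => ?_
    rw [Measure.restrict_restrict hs]
    have hT : MeasurableSet (s ∩ Z) := hs.inter hZ
    have himg : y '' (s ∩ Z) = grad ψ '' (J '' (s ∩ Z)) := by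
      rw [image_image]
      exact image_congr fun z hz => hyJ z hz.2
    calc ∫⁻ z in s ∩ Z, volume (B n) * (dJ z * ρ (J z))
        = volume (B n) * ∫⁻ z in s ∩ Z, dJ z * ρ (J z) :=
          lintegral_const_mul' _ _ isCompact_B.measure_lt_top.ne
      _ = volume (B n) * ∫⁻ x in J '' (s ∩ Z), ρ x := by
          rw [lintegral_image_eq_lintegral_abs_det_fderiv_mul volume hT
            (fun z hz => (hdJ z hz.2).mono inter_subset_right) (hinj.mono inter_subset_right)]
      _ ≤ volume (B n) * (volume.withDensity ρ) (grad ψ ⁻¹' (y '' (s ∩ Z))) := by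
          refine mul_le_mul' le_rfl ((withDensity_apply_le ρ _).trans (measure_mono ?_))
          rw [himg]
          exact subset_preimage_image _ _
      _ ≤ volume (B n) * unifBall n (y '' (s ∩ Z)) := by
          refine mul_le_mul' le_rfl ?_
          rw [← hmap]
          exact Measure.le_map_apply (measurable_grad ψ).aemeasurable _
      _ ≤ volume (y '' (s ∩ Z)) := by
          rw [unifBall, Measure.smul_apply, smul_eq_mul, ← mul_assoc,
            ENNReal.mul_inv_cancel volume_B_ne_zero isCompact_B.measure_lt_top.ne, one_mul]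
          exact Measure.restrict_apply_le _ _
      _ ≤ ∫⁻ z in s ∩ Z, ENNReal.ofReal |(Dy z).det| :=
          addHaar_image_le_lintegral_abs_det_fderiv volume hT
            fun z hz => hz.2.1.hasFDerivAt.hasFDerivWithinAt
      _ = ∫⁻ z in s ∩ Z, ENNReal.ofReal (Dy z).det :=
          setLIntegral_congr_fun hT fun z hz => by rw [abs_of_nonneg (hdet0 z hz.2)]
  -- almost every `x` is `J z` for some `z` in `Z`
  have hN : volume (J '' {z | ¬DifferentiableAt ℝ y z}) = 0 :=
    hausdorff_null hJ hy.ae_differentiableAt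
  have hfull : ∀ᵐ x, x ∈ J '' Z := by
    filter_upwards [ae_differentiable hψ, measure_eq_zero_iff_ae_notMem.1 hN] with x hx hxN
    have hx' : x + l • grad ψ x - l • grad ψ x = x := add_sub_cancel_right _ _
    have hyx : y (x + l • grad ψ x) = grad ψ x :=
      max_unique hc hψ hl (grad_mem hψ x) (by rw [hx']; exact exists_unique_max hψ hx)
    have hJx : J (x + l • grad ψ x) = x := by
      show _ - l • y (x + l • grad ψ x) = x
      rw [hyx, hx']
    refine ⟨x + l • grad ψ x, ⟨?_, ?_⟩, hJx⟩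
    · by_contra h
      exact hxN ⟨_, h, hJx⟩
    · show J _ ∈ S₀
      rw [hJx]; exact hx
  calc ∫⁻ x, G (x + l • grad ψ x) * (volume (B n) * ρ x) ^ ((n : ℝ)⁻¹)
      = ∫⁻ x in J '' Z, G (x + l • grad ψ x) * (volume (B n) * ρ x) ^ ((n : ℝ)⁻¹) := by
        rw [Measure.restrict_eq_self_of_ae_mem hfull]
    _ = ∫⁻ z in Z, dJ z * (G (J z + l • grad ψ (J z)) *
          (volume (B n) * ρ (J z)) ^ ((n : ℝ)⁻¹)) :=
        lintegral_image_eq_lintegral_abs_det_fderiv_mul volume hZ hdJ hinj _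
    _ ≤ ∫⁻ z in Z, G z * ENNReal.ofReal (Dy z).det ^ ((n : ℝ)⁻¹) := by
        refine lintegral_mono_ae ?_
        filter_upwards [key, ae_restrict_mem hZ] with z hk hz
        rw [hback z hz]
        have hJ1 : dJ z ≤ 1 := ENNReal.ofReal_le_one.2 (abs_det_le_one
          (by simpa using norm_fderiv_le_of_lipschitz ℝ hJ (x₀ := z)))
        have hn1 : (n : ℝ)⁻¹ ≤ 1 := inv_le_one_of_one_le₀ (by exact_mod_cast hn)
        calc dJ z * (G z * (volume (B n) * ρ (J z)) ^ ((n : ℝ)⁻¹))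
            = G z * (dJ z ^ (1 : ℝ) * (volume (B n) * ρ (J z)) ^ ((n : ℝ)⁻¹)) := by
              rw [ENNReal.rpow_one]; ring
          _ ≤ G z * (dJ z ^ ((n : ℝ)⁻¹) * (volume (B n) * ρ (J z)) ^ ((n : ℝ)⁻¹)) :=
              mul_le_mul' le_rfl (mul_le_mul' (ENNReal.rpow_le_rpow_of_exponent_ge hJ1 hn1) le_rfl)
          _ ≤ G z * ENNReal.ofReal (Dy z).det ^ ((n : ℝ)⁻¹) := by
              rw [← ENNReal.mul_rpow_of_nonneg _ _ (by positivity : (0 : ℝ) ≤ (n : ℝ)⁻¹)]
              refine mul_le_mul' le_rfl (ENNReal.rpow_le_rpow ?_ (by positivity))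
              refine le_of_eq_of_le ?_ hk
              ring
    _ ≤ _ := setLIntegral_le_lintegral _ _

end Vale.Agent.P219.Transport
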